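import Vale.Agent.P268.T.PlatesH

/-!
# P268, topological half: the fold sheet

`w = Y + (|⟪Y, φ⟫| - ⟪Y, φ⟫ + z) φ`, `Y = v - m`: for `z = - r₀` it consists of the two layers
`Y = ± r₀ φ`; as `z` grows to `0` the layers converge.  Along a base direction in which `z` grows
with slope one and everything else is constant, `w` moves by `φ` (fold); on the layers `w` is a
fibrewise isometry.
-/

set_option linter.unusedSectionVars false

namespace Vale.Agent.P268.T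

open Set Filter Topology

section Algebra

variable {V : Type*} [NormedAddCommGroup V] [InnerProductSpace ℝ V]

theorem norm_sub_inner_smul_le {ph E : V} (hph : ‖ph‖ = 1) :
    ‖E - inner ℝ E ph • ph‖ ≤ ‖E‖ := by
  have h1 : ‖E - inner ℝ E ph • ph‖ ^ 2 = ‖E‖ ^ 2 - (inner ℝ E ph) ^ 2 := by
    rw [norm_sub_sq_real, norm_smul, hph, mul_one, real_inner_smul_right, Real.norm_eq_abs,
      sq_abs]
    ring
  have h2 : ‖E - inner ℝ E ph • ph‖ ^ 2 ≤ ‖E‖ ^ 2 := by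
    rw [h1]; nlinarith [sq_nonneg (inner ℝ E ph)]
  exact (pow_le_pow_iff_left₀ (norm_nonneg _) (norm_nonneg _) two_ne_zero).mp h2

theorem foldTip_est {ph p₀ Y Y' v : V} {z z' α κ ε₁ ε₂ : ℝ} (hph : ‖ph‖ = 1)
    (hp₀ : ‖p₀‖ = 1) (hα : α = inner ℝ v p₀) (hp : ‖ph - p₀‖ ≤ κ)
    (hY : ‖Y' - Y - (v - α • p₀)‖ ≤ ε₁) (hz : |z' - z - α| ≤ ε₂) :
    ‖Y' + (|inner ℝ Y' ph| - inner ℝ Y' ph + z') • ph -
      (Y + (|inner ℝ Y ph| - inner ℝ Y ph + z) • ph) - v‖ ≤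
        5 * κ * ‖v‖ + (2 * ε₁ + ε₂) := by
  set E := Y' - Y - (v - α • p₀) with hE
  have hκ : 0 ≤ κ := (norm_nonneg _).trans hp
  have hαv : |α| ≤ ‖v‖ := by
    rw [hα]
    exact (abs_real_inner_le_norm _ _).trans (by rw [hp₀, mul_one])
  have h1 : inner ℝ Y' ph - inner ℝ Y ph = inner ℝ (v - α • p₀) (ph - p₀) + inner ℝ E ph := by
    have e1 : inner ℝ (v - α • p₀) p₀ = 0 := by
      rw [inner_sub_left, real_inner_smul_left, real_inner_self_eq_norm_sq, hp₀, ← hα]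
      ring
    have e2 : Y' = Y + (v - α • p₀) + E := by rw [hE]; abel
    rw [inner_sub_right, e1, sub_zero, e2, inner_add_left, inner_add_left]
    ring
  have hvα : ‖v - α • p₀‖ ≤ 2 * ‖v‖ := by
    refine (norm_sub_le _ _).trans ?_
    rw [norm_smul, hp₀, mul_one, Real.norm_eq_abs]
    linarith
  set e := inner ℝ E ph with he
  have hee : |e| ≤ ε₁ := by
    refine (abs_real_inner_le_norm _ _).trans ?_
    rw [hph, mul_one]; exact hY
  have h2 : |inner ℝ (v - α • p₀) (ph - p₀)| ≤ 2 * κ * ‖v‖ := by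
    refine (abs_real_inner_le_norm _ _).trans ?_
    calc ‖v - α • p₀‖ * ‖ph - p₀‖ ≤ 2 * ‖v‖ * κ :=
          mul_le_mul hvα hp (norm_nonneg _) (by positivity)
      _ = _ := by ring
  set lam := inner ℝ Y ph
  set lam' := inner ℝ Y' ph
  set j := inner ℝ (v - α • p₀) (ph - p₀)
  have h3 : |(|lam'| - |lam|) - j| ≤ 4 * κ * ‖v‖ + ε₁ := by
    have h4 := abs_abs_sub_abs_le_abs_sub lam' lam
    have h5 : |lam' - lam| ≤ 2 * κ * ‖v‖ + ε₁ := by
      rw [h1]; exact (abs_add_le _ _).trans (add_le_add h2 hee)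
    have h6 : |(|lam'| - |lam|) - j| ≤ |(|lam'| - |lam|)| + |j| := abs_sub _ _
    linarith
  have e3 : Y' + (|lam'| - lam' + z') • ph - (Y + (|lam| - lam + z) • ph) - v =
      (E - e • ph) + α • (ph - p₀) + (((|lam'| - |lam|) - j) + (z' - z - α)) • ph := by
    have h7 : lam' = lam + (j + e) := by linarith
    rw [hE, h7]
    module
  rw [e3]
  refine (norm_add_le _ _).trans ?_
  have h4 : ‖(E - e • ph) + α • (ph - p₀)‖ ≤ ε₁ + κ * ‖v‖ := by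
    refine (norm_add_le _ _).trans (add_le_add ((norm_sub_inner_smul_le hph).trans hY) ?_)
    rw [norm_smul, Real.norm_eq_abs, mul_comm κ]
    exact mul_le_mul hαv hp (norm_nonneg _) (norm_nonneg _)
  have h5 : ‖(((|lam'| - |lam|) - j) + (z' - z - α)) • ph‖ ≤
      (4 * κ * ‖v‖ + ε₁) + ε₂ := by
    rw [norm_smul, hph, mul_one, Real.norm_eq_abs]
    exact (abs_add_le _ _).trans (add_le_add h3 hz)
  linarith

theorem foldLayer_est {ph p₀ Y Y' v : V} {z z' α κ ε₁ ε₂ ς : ℝ} (hph : ‖ph‖ = 1)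
    (hp₀ : ‖p₀‖ = 1) (hς : ς = 1 ∨ ς = -1) (hα : α = inner ℝ v p₀) (hp : ‖ph - p₀‖ ≤ κ)
    (h1 : |inner ℝ Y ph| = ς * inner ℝ Y ph) (h2 : |inner ℝ Y' ph| = ς * inner ℝ Y' ph)
    (hY : ‖Y' - Y - (v + ((ς - 1) * α) • p₀)‖ ≤ ε₁) (hz : |z' - z| ≤ ε₂) :
    ‖Y' + (|inner ℝ Y' ph| - inner ℝ Y' ph + z') • ph -
      (Y + (|inner ℝ Y ph| - inner ℝ Y ph + z) • ph) - v‖ ≤
        8 * κ * ‖v‖ + (2 * ε₁ + ε₂) := by
  set E := Y' - Y - (v + ((ς - 1) * α) • p₀) with hE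
  have hκ : 0 ≤ κ := (norm_nonneg _).trans hp
  have hε : 0 ≤ ε₁ := (norm_nonneg _).trans hY
  have hαv : |α| ≤ ‖v‖ := by
    rw [hα]
    exact (abs_real_inner_le_norm _ _).trans (by rw [hp₀, mul_one])
  rw [h1, h2]
  have e2 : Y' = Y + (v + ((ς - 1) * α) • p₀) + E := by rw [hE]; abel
  have h3 : inner ℝ Y' ph - inner ℝ Y ph =
      inner ℝ v (ph - p₀) + α + (ς - 1) * α * (1 + inner ℝ p₀ (ph - p₀)) + inner ℝ E ph := by
    rw [e2, inner_add_left, inner_add_left, inner_add_left, real_inner_smul_left,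
      inner_sub_right, inner_sub_right, real_inner_self_eq_norm_sq, hp₀, ← hα]
    ring
  set lam := inner ℝ Y ph
  set lam' := inner ℝ Y' ph
  have i1 : |inner ℝ v (ph - p₀)| ≤ κ * ‖v‖ := by
    refine (abs_real_inner_le_norm _ _).trans ?_
    rw [mul_comm]
    exact mul_le_mul_of_nonneg_right hp (norm_nonneg _)
  have i2 : |inner ℝ p₀ (ph - p₀)| ≤ κ := by
    refine (abs_real_inner_le_norm _ _).trans ?_
    rw [hp₀, one_mul]; exact hp
  have i3 : |inner ℝ E ph| ≤ ε₁ := by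
    refine (abs_real_inner_le_norm _ _).trans ?_
    rw [hph, mul_one]; exact hY
  have hv := norm_nonneg v
  have hκv : 0 ≤ κ * ‖v‖ := by positivity
  rcases hς with rfl | rfl
  · have e3 : Y' + (1 * lam' - lam' + z') • ph - (Y + (1 * lam - lam + z) • ph) - v =
        E + (z' - z) • ph := by
      rw [hE]
      module
    rw [e3]
    refine (norm_add_le _ _).trans ?_
    rw [norm_smul, hph, mul_one, Real.norm_eq_abs]
    linarith
  · have i4 : |α * inner ℝ p₀ (ph - p₀)| ≤ κ * ‖v‖ := by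
      rw [abs_mul, mul_comm κ]
      exact mul_le_mul hαv i2 (abs_nonneg _) hv
    set e := inner ℝ E ph with he
    have e3 : Y' + (-1 * lam' - lam' + z') • ph - (Y + (-1 * lam - lam + z) • ph) - v =
        (E - e • ph) + (2 * α) • (ph - p₀) +
          (-2 * (lam' - lam + α - e) - e + (z' - z)) • ph := by
      rw [hE]
      module
    rw [e3]
    have h5 : |lam' - lam + α - e| ≤ 3 * κ * ‖v‖ := by
      have e4 : lam' - lam + α - e = inner ℝ v (ph - p₀) +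
          (-2) * (α * inner ℝ p₀ (ph - p₀)) := by
        rw [h3]; ring
      rw [e4]
      refine (abs_add_le _ _).trans ?_
      have : |(-2) * (α * inner ℝ p₀ (ph - p₀))| = 2 * |α * inner ℝ p₀ (ph - p₀)| := by
        rw [abs_mul]; norm_num
      rw [this]
      linarith
    refine (norm_add_le _ _).trans ?_
    have h6 : ‖(E - e • ph) + (2 * α) • (ph - p₀)‖ ≤ ε₁ + 2 * κ * ‖v‖ := by
      refine (norm_add_le _ _).trans (add_le_add ((norm_sub_inner_smul_le hph).trans hY) ?_)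
      rw [norm_smul, Real.norm_eq_abs, abs_mul, abs_two]
      have := mul_le_mul hαv hp (norm_nonneg _) hv
      linarith
    have h7 : ‖(-2 * (lam' - lam + α - e) - e + (z' - z)) • ph‖ ≤
        6 * κ * ‖v‖ + ε₁ + ε₂ := by
      rw [norm_smul, hph, mul_one, Real.norm_eq_abs]
      refine (abs_add_le _ _).trans (add_le_add ?_ hz)
      refine (abs_sub _ _).trans (add_le_add ?_ i3)
      rw [abs_mul]
      have : |(-2 : ℝ)| = 2 := by norm_num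
      rw [this]
      linarith
    linarith

end Algebra

section Dir

variable {T S V : Type*} [TopologicalSpace T] [NormedAddCommGroup S] [NormedSpace ℝ S]
  [NormedAddCommGroup V] [InnerProductSpace ℝ V]

/-- The direction at the tip of a fold: the `p₀`-component of `v` is realised by the base
direction `e₀`. -/
noncomputable def tipD (e₀ : S) (p₀ : V) : V →L[ℝ] S × V :=
  ((innerSL ℝ p₀).smulRight e₀).prod
    (ContinuousLinearMap.id ℝ V - (innerSL ℝ p₀).smulRight p₀)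

theorem tipD_apply (e₀ : S) (p₀ v : V) :
    tipD e₀ p₀ v = (inner ℝ v p₀ • e₀, v - inner ℝ v p₀ • p₀) := by
  simp [tipD, real_inner_comm]

/-- The direction on the layers of a fold: identity or reflection in the fibre. -/
noncomputable def layD (S : Type*) [NormedAddCommGroup S] [NormedSpace ℝ S] (ς : ℝ) (p₀ : V) :
    V →L[ℝ] S × V :=
  (0 : V →L[ℝ] S).prod (ContinuousLinearMap.id ℝ V + (ς - 1) • (innerSL ℝ p₀).smulRight p₀)

theorem layD_apply (ς : ℝ) (p₀ v : V) :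
    layD S ς p₀ v = (0, v + ((ς - 1) * inner ℝ v p₀) • p₀) := by
  simp [layD, real_inner_comm, smul_smul]

variable {s : Set T} {τ₀ : T} {x₀ : S × V} {m ph : T → S → V} {z : T → S → ℝ}

/-- The fold sheet as a function. -/
noncomputable def foldS (m ph : T → S → V) (z : T → S → ℝ) (τ : T) (x : S × V) : V :=
  (x.2 - m τ x.1) + (|inner ℝ (x.2 - m τ x.1) (ph τ x.1)| -
    inner ℝ (x.2 - m τ x.1) (ph τ x.1) + z τ x.1) • ph τ x.1

/-- **The fold at its tip.** `e₀`: base direction in which `z` grows with slope one and `m`, `φ`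
are constant; `u₁`: a slow direction. -/
theorem foldS_tip
    (cph : ContinuousWithinAt (fun p : T × S => ph p.1 p.2) (s ×ˢ univ) (τ₀, x₀.1))
    (nph : ∃ U ∈ 𝓝 x₀.1, ∀ᶠ τ in 𝓝[s] τ₀, ∀ y ∈ U, ‖ph τ y‖ = 1) (hp₀ : ‖ph τ₀ x₀.1‖ = 1)
    {e₀ u₁ : S}
    (hd : ∃ U ∈ 𝓝 x₀.1, ∀ᶠ τ in 𝓝[s] τ₀, ∀ y ∈ U, ∀ α l : ℝ, y + (α • e₀ + l • u₁) ∈ U →
      ph τ (y + (α • e₀ + l • u₁)) = ph τ y ∧
      ‖m τ (y + (α • e₀ + l • u₁)) - m τ y‖ ≤ |l| / 32 ∧
      |z τ (y + (α • e₀ + l • u₁)) - z τ y - α| ≤ |l| / 32) {κ : ℝ} (hκ : 0 < κ) :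
    ∃ U ∈ 𝓝 x₀, ∀ᶠ τ in 𝓝[s] τ₀, ∀ y ∈ U, ∀ (v : V) (l : ℝ),
      y + (tipD e₀ (ph τ₀ x₀.1) v + l • ((u₁, 0) : S × V)) ∈ U →
      ‖foldS m ph z τ (y + (tipD e₀ (ph τ₀ x₀.1) v + l • ((u₁, 0) : S × V))) -
        foldS m ph z τ y - v‖ ≤ κ * ‖v‖ + |l| / 8 := by
  set p₀ := ph τ₀ x₀.1 with hp₀d
  obtain ⟨U1, hU1, h1⟩ := nph
  obtain ⟨U2, hU2, h2⟩ := hd
  obtain ⟨U3, hU3, h3⟩ := ev_prod (Q := fun τ y => ‖ph τ y - p₀‖ ≤ κ / 5) (by
    have := cph.eventually (Metric.ball_mem_nhds _ (by positivity : 0 < κ / 5))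
    filter_upwards [this] with p hp
    have h := Metric.mem_ball.mp hp
    rw [dist_eq_norm] at h
    exact h.le)
  refine ⟨Prod.fst ⁻¹' (U1 ∩ (U2 ∩ U3)), continuous_fst.continuousAt.preimage_mem_nhds
    (inter_mem hU1 (inter_mem hU2 hU3)), ?_⟩
  filter_upwards [h1, h2, h3] with τ e1 e2 e3 y hy v l hyv
  have f1 : (y + (tipD e₀ p₀ v + l • ((u₁, 0) : S × V))).1 =
      y.1 + (inner ℝ v p₀ • e₀ + l • u₁) := by
    rw [tipD_apply]; simp
  have f2 : (y + (tipD e₀ p₀ v + l • ((u₁, 0) : S × V))).2 = y.2 + (v - inner ℝ v p₀ • p₀) := by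
    rw [tipD_apply]; simp
  have hyv' : (y + (tipD e₀ p₀ v + l • ((u₁, 0) : S × V))).1 ∈ U1 ∩ (U2 ∩ U3) := hyv
  rw [f1] at hyv'
  have hy' : y.1 ∈ U1 ∩ (U2 ∩ U3) := hy
  obtain ⟨g1, g2, g3⟩ := e2 y.1 hy'.2.1 _ l hyv'.2.1
  unfold foldS
  rw [f1, f2, g1]
  have hκ5 : 5 * (κ / 5) * ‖v‖ + (2 * (|l| / 32) + |l| / 32) ≤ κ * ‖v‖ + |l| / 8 := by
    have := abs_nonneg l
    linarith
  refine (foldTip_est (ε₁ := |l| / 32) (e1 y.1 hy'.1) hp₀ rfl (e3 y.1 hy'.2.2) ?_ g3).trans hκ5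
  have e : y.2 + (v - inner ℝ v p₀ • p₀) - m τ (y.1 + (inner ℝ v p₀ • e₀ + l • u₁)) -
      (y.2 - m τ y.1) - (v - inner ℝ v p₀ • p₀) =
      -(m τ (y.1 + (inner ℝ v p₀ • e₀ + l • u₁)) - m τ y.1) := by abel
  rw [e, norm_neg]
  exact g2

/-- **The layers of the fold.** `ς` is the sign of the layer; `m`, `φ`, `z` are merely continuous
(along the slow direction `u₁` they move slowly, `φ` not at all). -/
theorem foldS_layer
    (cph : ContinuousWithinAt (fun p : T × S => ph p.1 p.2) (s ×ˢ univ) (τ₀, x₀.1))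
    (cm : ContinuousWithinAt (fun p : T × S => m p.1 p.2) (s ×ˢ univ) (τ₀, x₀.1))
    (nph : ∃ U ∈ 𝓝 x₀.1, ∀ᶠ τ in 𝓝[s] τ₀, ∀ y ∈ U, ‖ph τ y‖ = 1) (hp₀ : ‖ph τ₀ x₀.1‖ = 1)
    {ς : ℝ} (hς : ς = 1 ∨ ς = -1)
    (hlam : 0 < ς * inner ℝ (x₀.2 - m τ₀ x₀.1) (ph τ₀ x₀.1)) {u₁ : S}
    (hd : ∃ U ∈ 𝓝 x₀.1, ∀ᶠ τ in 𝓝[s] τ₀, ∀ y ∈ U, ∀ l : ℝ, y + l • u₁ ∈ U →
      ph τ (y + l • u₁) = ph τ y ∧ ‖m τ (y + l • u₁) - m τ y‖ ≤ |l| / 32 ∧
      |z τ (y + l • u₁) - z τ y| ≤ |l| / 32) {κ : ℝ} (hκ : 0 < κ) :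
    ∃ U ∈ 𝓝 x₀, ∀ᶠ τ in 𝓝[s] τ₀, ∀ y ∈ U, ∀ (v : V) (l : ℝ),
      y + (layD S ς (ph τ₀ x₀.1) v + l • ((u₁, 0) : S × V)) ∈ U →
      ‖foldS m ph z τ (y + (layD S ς (ph τ₀ x₀.1) v + l • ((u₁, 0) : S × V))) -
        foldS m ph z τ y - v‖ ≤ κ * ‖v‖ + |l| / 8 := by
  set p₀ := ph τ₀ x₀.1 with hp₀d
  obtain ⟨U1, hU1, h1⟩ := nph
  obtain ⟨U2, hU2, h2⟩ := hd
  obtain ⟨U3, hU3, h3⟩ := ev_prod (Q := fun τ y => ‖ph τ y - p₀‖ ≤ κ / 8) (by
    have := cph.eventually (Metric.ball_mem_nhds _ (by positivity : 0 < κ / 8))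
    filter_upwards [this] with p hp
    have h := Metric.mem_ball.mp hp
    rw [dist_eq_norm] at h
    exact h.le)
  -- the sign of the layer
  obtain ⟨U4, hU4, h4⟩ := ev_prod (E := S × V) (x₀ := x₀)
    (Q := fun τ y => 0 < ς * inner ℝ (y.2 - m τ y.1) (ph τ y.1)) (s := s) (t₀ := τ₀) (by
    have hm : ContinuousWithinAt (fun p : T × (S × V) => (p.1, p.2.1)) (s ×ˢ univ) (τ₀, x₀) := by
      fun_prop
    have hmt : MapsTo (fun p : T × (S × V) => (p.1, p.2.1)) (s ×ˢ univ) (s ×ˢ (univ : Set S)) :=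
      fun p hp => ⟨hp.1, mem_univ _⟩
    have c1 : ContinuousWithinAt (fun p : T × (S × V) => ph p.1 p.2.1) (s ×ˢ univ) (τ₀, x₀) :=
      ContinuousWithinAt.comp (g := fun p : T × S => ph p.1 p.2)
        (f := fun p : T × (S × V) => (p.1, p.2.1)) (x := (τ₀, x₀)) cph hm hmt
    have c2 : ContinuousWithinAt (fun p : T × (S × V) => m p.1 p.2.1) (s ×ˢ univ) (τ₀, x₀) :=
      ContinuousWithinAt.comp (g := fun p : T × S => m p.1 p.2)
        (f := fun p : T × (S × V) => (p.1, p.2.1)) (x := (τ₀, x₀)) cm hm hmt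
    have c3 : ContinuousWithinAt (fun p : T × (S × V) => p.2.2) (s ×ˢ univ) (τ₀, x₀) := by
      fun_prop
    have c4 : ContinuousWithinAt (fun p : T × (S × V) =>
        ς * inner ℝ (p.2.2 - m p.1 p.2.1) (ph p.1 p.2.1)) (s ×ˢ univ) (τ₀, x₀) :=
      continuousWithinAt_const.mul ((c3.sub c2).inner (𝕜 := ℝ) c1)
    exact c4.eventually (lt_mem_nhds hlam))
  refine ⟨Prod.fst ⁻¹' (U1 ∩ (U2 ∩ U3)) ∩ U4, inter_mem (continuous_fst.continuousAt.preimage_mem_nhds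
    (inter_mem hU1 (inter_mem hU2 hU3))) hU4, ?_⟩
  filter_upwards [h1, h2, h3, h4] with τ e1 e2 e3 e4 y hy v l hyv
  have f1 : (y + (layD S ς p₀ v + l • ((u₁, 0) : S × V))).1 = y.1 + l • u₁ := by
    rw [layD_apply]; simp
  have f2 : (y + (layD S ς p₀ v + l • ((u₁, 0) : S × V))).2 =
      y.2 + (v + ((ς - 1) * inner ℝ v p₀) • p₀) := by
    rw [layD_apply]; simp
  have hyv' : (y + (layD S ς p₀ v + l • ((u₁, 0) : S × V))).1 ∈ U1 ∩ (U2 ∩ U3) := hyv.1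
  have hy' : y.1 ∈ U1 ∩ (U2 ∩ U3) := hy.1
  have k1 := e4 y hy.2
  have k2 := e4 _ hyv.2
  rw [f1] at hyv'
  rw [f1, f2] at k2
  obtain ⟨g1, g2, g3⟩ := e2 y.1 hy'.2.1 l hyv'.2.1
  rw [g1] at k2
  have habs : ∀ t : ℝ, 0 < ς * t → |t| = ς * t := by
    intro t ht
    rcases hς with rfl | rfl
    · rw [one_mul] at ht ⊢; exact abs_of_pos ht
    · rw [neg_one_mul] at ht ⊢; exact abs_of_neg (by linarith)
  unfold foldS
  rw [f1, f2, g1]
  have hκ8 : 8 * (κ / 8) * ‖v‖ + (2 * (|l| / 32) + |l| / 32) ≤ κ * ‖v‖ + |l| / 8 := by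
    have := abs_nonneg l
    linarith
  refine (foldLayer_est (ε₁ := |l| / 32) (e1 y.1 hy'.1) hp₀ hς rfl (e3 y.1 hy'.2.2) (habs _ k1)
    (habs _ k2) ?_ g3).trans hκ8
  have e : y.2 + (v + ((ς - 1) * inner ℝ v p₀) • p₀) - m τ (y.1 + l • u₁) -
      (y.2 - m τ y.1) - (v + ((ς - 1) * inner ℝ v p₀) • p₀) =
      -(m τ (y.1 + l • u₁) - m τ y.1) := by abel
  rw [e, norm_neg]
  exact g2

end Dir

end Vale.Agent.P268.T
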