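import Vale.Agent.P268.T.H278.HPFold
import Vale.Agent.P268.T.H327.HPFinal

/-!
# P268, topological half: the directions of the fold plate, `FoldDirs`
-/

set_option linter.unusedSectionVars false

namespace Vale.Agent.P268.T

open Set Filter Topology Metric

variable {T V κ ι : Type*} [TopologicalSpace T] [NormedAddCommGroup V] [InnerProductSpace ℝ V]
  [Fintype ι] [DecidableEq ι] {s : Set T} {i₀ : ι} {e : V} {ε R M K : T → ℝ}
  {D : T → HData κ (ι → ℝ) V}

/-- **The directions of the fold plate.** -/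
theorem foldDirs (cε : ContinuousOn ε s) (cK : ContinuousOn K s) (hD : HPFam s i₀ e D)
    (hA : ∀ τ ∈ s, HAdm i₀ (ε τ) (R τ) (M τ) (K τ) (D τ)) :
    FoldDirs s i₀ e ε R M K D := fun τ₀ hτ₀ _ hx₀ _ _ HD hδ hδR hk =>
  ⟨fun _ hς hla _ => hfold_layer cε cK hD hτ₀ (hA τ₀ hτ₀) hx₀ HD hδ hδR hς hla,
    fun hq => hfold_tip cε cK hD hτ₀ (hA τ₀ hτ₀) hx₀ HD hδ hδR hk hq⟩

end Vale.Agent.P268.T
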