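import Vale.Agent.P268.T.H278.Fold
import Vale.Agent.P268.T.H327.HP
import Vale.Agent.P268.T.H327.Zero

/-!
# P268, topological half: the directions of the fold sheet, in the form `SheetDir`
-/

set_option linter.unusedSectionVars false

namespace Vale.Agent.P268.T

open Set Filter Topology

variable {T S V : Type*} [TopologicalSpace T] [NormedAddCommGroup S] [NormedSpace ℝ S]
  [NormedAddCommGroup V] [InnerProductSpace ℝ V]

theorem layD_one (p₀ : V) : layD S 1 p₀ = ContinuousLinearMap.inr ℝ S V := by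
  ext v <;> simp [layD_apply]

theorem layD_neg_apply (p₀ v : V) : layD S (-1) p₀ v = (0, rfl' p₀ v) := by
  rw [layD_apply, rfl', real_inner_comm]
  congr 1
  module

/-- Continuity of the data of the fold sheet at a point. -/
structure FoldLoc (s : Set T) (τ₀ : T) (s₀ : S) (m ph nw : T → S → V) (z : T → S → ℝ)
    (g : S → ℝ) (ρ : T → ℝ) : Prop where
  cm : ContinuousWithinAt (fun p : T × S => m p.1 p.2) (s ×ˢ univ) (τ₀, s₀)
  cph : ContinuousWithinAt (fun p : T × S => ph p.1 p.2) (s ×ˢ univ) (τ₀, s₀)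
  cnw : ContinuousWithinAt (fun p : T × S => nw p.1 p.2) (s ×ˢ univ) (τ₀, s₀)
  cz : ContinuousWithinAt (fun p : T × S => z p.1 p.2) (s ×ˢ univ) (τ₀, s₀)
  cg : ContinuousAt g s₀
  cρ : ContinuousWithinAt ρ s τ₀
  nph : ∃ U ∈ 𝓝 s₀, ∀ᶠ τ in 𝓝[s] τ₀, ∀ y ∈ U, ‖ph τ y‖ = 1
  nnw : ∃ U ∈ 𝓝 s₀, ∀ᶠ τ in 𝓝[s] τ₀, ∀ y ∈ U, ‖nw τ y‖ = 1

variable {s : Set T} {τ₀ : T} {x₀ : S × V} {m ph nw : T → S → V} {z : T → S → ℝ}
  {g : S → ℝ} {ρ : T → ℝ}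

theorem cwa_fst {W : Type*} [TopologicalSpace W] {f : T → S → W}
    (h : ContinuousWithinAt (fun p : T × S => f p.1 p.2) (s ×ˢ univ) (τ₀, x₀.1)) :
    ContinuousWithinAt (fun p : T × (S × V) => f p.1 p.2.1) (s ×ˢ univ) (τ₀, x₀) :=
  ContinuousWithinAt.comp (g := fun p : T × S => f p.1 p.2)
    (f := fun p : T × (S × V) => (p.1, p.2.1)) (x := (τ₀, x₀)) h (by fun_prop)
    (fun p hp => ⟨hp.1, mem_univ _⟩)

theorem FoldLoc.cw (H : FoldLoc s τ₀ x₀.1 m ph nw z g ρ) :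
    ContinuousWithinAt (fun p : T × (S × V) =>
      foldw (z p.1 p.2.1) (ph p.1 p.2.1) (p.2.2 - g p.2.1 • m p.1 p.2.1)) (s ×ˢ univ)
      (τ₀, x₀) := by
  have c1 := cwa_fst (V := V) (x₀ := x₀) H.cm
  have c2 := cwa_fst (V := V) (x₀ := x₀) H.cph
  have c3 := cwa_fst (V := V) (x₀ := x₀) H.cz
  have c4 : ContinuousWithinAt (fun p : T × (S × V) => g p.2.1) (s ×ˢ univ) (τ₀, x₀) := by
    have h1 : ContinuousAt (fun p : T × (S × V) => g p.2.1) (τ₀, x₀) :=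
      ContinuousAt.comp (g := g) (f := fun p : T × (S × V) => p.2.1) (x := (τ₀, x₀)) H.cg
        (by fun_prop)
    exact h1.continuousWithinAt
  have c5 : ContinuousWithinAt (fun p : T × (S × V) => p.2.2 - g p.2.1 • m p.1 p.2.1)
      (s ×ˢ univ) (τ₀, x₀) := by
    have h2 : ContinuousWithinAt (fun p : T × (S × V) => p.2.2) (s ×ˢ univ) (τ₀, x₀) := by
      fun_prop
    exact h2.sub (c4.smul c1)
  have c6 : ContinuousWithinAt (fun p : T × (S × V) =>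
      inner ℝ (p.2.2 - g p.2.1 • m p.1 p.2.1) (ph p.1 p.2.1)) (s ×ˢ univ) (τ₀, x₀) :=
    c5.inner (𝕜 := ℝ) c2
  unfold foldw
  exact c5.add (((c6.abs.sub c6).add c3).smul c2)

theorem FoldLoc.small (H : FoldLoc s τ₀ x₀.1 m ph nw z g ρ) {δ δ' : ℝ} (hδ : 0 ≤ δ)
    (hδ' : 0 ≤ δ') (hρ : 0 ≤ ρ τ₀)
    (hsm : δ * (2 * ‖m τ₀ x₀.1‖ + ρ τ₀) + 2 * δ' < 1 / 8) :
    ∃ U ∈ 𝓝 x₀.1, ∀ᶠ τ in 𝓝[s] τ₀, ∀ y ∈ U, 2 * (δ * ‖m τ y‖) + δ' ≤ 1 / 8 ∧
      |ρ τ| * δ ≤ 1 / 8 := by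
  have h1 : 2 * (δ * ‖m τ₀ x₀.1‖) + δ' < 1 / 8 := by
    have : 0 ≤ δ * ρ τ₀ := by positivity
    linarith
  have h2 : |ρ τ₀| * δ < 1 / 8 := by
    rw [abs_of_nonneg hρ]
    have : 0 ≤ δ * (2 * ‖m τ₀ x₀.1‖) := by positivity
    linarith
  have c1 : ContinuousWithinAt (fun p : T × S => 2 * (δ * ‖m p.1 p.2‖) + δ') (s ×ˢ univ)
      (τ₀, x₀.1) :=
    (continuousWithinAt_const.mul (continuousWithinAt_const.mul H.cm.norm)).add
      continuousWithinAt_const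
  have c2 : ContinuousWithinAt (fun τ => |ρ τ| * δ) s τ₀ := H.cρ.abs.mul continuousWithinAt_const
  obtain ⟨U, hU, hev⟩ := ev_prod (Q := fun τ y => 2 * (δ * ‖m τ y‖) + δ' < 1 / 8)
    (c1.eventually (gt_mem_nhds h1))
  refine ⟨U, hU, ?_⟩
  filter_upwards [hev, c2.eventually (gt_mem_nhds h2)] with τ e1 e2 y hy
  exact ⟨(e1 y hy).le, e2.le⟩

/-- **The fold at its tip.** -/
theorem foldDir_tip (H : FoldLoc s τ₀ x₀.1 m ph nw z g ρ) (hτ₀ : τ₀ ∈ s) {e1 us : S}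
    {δ δ' : ℝ} (hδ : 0 ≤ δ) (hδ' : 0 ≤ δ') (hρ : 0 ≤ ρ τ₀)
    (hsm : δ * (2 * ‖m τ₀ x₀.1‖ + ρ τ₀) + 2 * δ' < 1 / 8)
    (hd : ∃ U ∈ 𝓝 x₀.1, ∀ᶠ τ in 𝓝[s] τ₀, ∀ y ∈ U, ∀ t l : ℝ, y + (t • e1 + l • us) ∈ U →
      m τ (y + (t • e1 + l • us)) = m τ y ∧ ph τ (y + (t • e1 + l • us)) = ph τ y ∧
      nw τ (y + (t • e1 + l • us)) = nw τ y ∧
      |g (y + (t • e1 + l • us)) - g y| ≤ δ * |l| ∧
      |z τ (y + (t • e1 + l • us)) - z τ y - t| ≤ δ' * |l|) :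
    SheetDir s τ₀ x₀ (fun τ x => foldw (z τ x.1) (ph τ x.1) (x.2 - g x.1 • m τ x.1))
      (fun τ x => nw τ x.1) (fun τ x => ρ τ * g x.1) (tipD e1 (ph τ₀ x₀.1)) (us, 0) where
  cw := H.cw
  cn := cwa_fst H.cnw
  nn := by
    obtain ⟨U, hU, hev⟩ := H.nnw
    rw [nhdsWithin_prod_eq, nhdsWithin_univ]
    have hU' : ∀ᶠ x : S × V in 𝓝 x₀, x.1 ∈ U := continuous_fst.continuousAt.eventually hU
    filter_upwards [hev.prod_mk hU'] with p hp
    exact hp.1 p.2.1 hp.2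
  dir := fun κ hκ => by
    set p₀ := ph τ₀ x₀.1 with hp₀d
    obtain ⟨U1, hU1, h1⟩ := H.nph
    have hp₀ : ‖p₀‖ = 1 := h1.self_of_nhdsWithin hτ₀ x₀.1 (mem_of_mem_nhds hU1)
    obtain ⟨U2, hU2, h2⟩ := hd
    obtain ⟨U3, hU3, h3⟩ := ev_prod (Q := fun τ y => ‖ph τ y - p₀‖ ≤ κ / 5) (by
      have := H.cph.eventually (Metric.ball_mem_nhds _ (by positivity : 0 < κ / 5))
      filter_upwards [this] with p hp
      have h := Metric.mem_ball.mp hp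
      rw [dist_eq_norm] at h
      exact h.le)
    obtain ⟨U4, hU4, h4⟩ := H.small (x₀ := x₀) hδ hδ' hρ hsm
    refine ⟨Prod.fst ⁻¹' (U1 ∩ (U2 ∩ (U3 ∩ U4))), continuous_fst.continuousAt.preimage_mem_nhds
      (inter_mem hU1 (inter_mem hU2 (inter_mem hU3 hU4))), ?_⟩
    filter_upwards [h1, h2, h3, h4] with τ e1' e2 e3 e4 y hy v l hyv
    have f1 : (y + (tipD e1 p₀ v + l • ((us, 0) : S × V))).1 =
        y.1 + (inner ℝ v p₀ • e1 + l • us) := by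
      rw [tipD_apply]; simp
    have f2 : (y + (tipD e1 p₀ v + l • ((us, 0) : S × V))).2 = y.2 + (v - inner ℝ v p₀ • p₀) := by
      rw [tipD_apply]; simp
    have hyv' : (y + (tipD e1 p₀ v + l • ((us, 0) : S × V))).1 ∈ U1 ∩ (U2 ∩ (U3 ∩ U4)) := hyv
    rw [f1] at hyv'
    have hy' : y.1 ∈ U1 ∩ (U2 ∩ (U3 ∩ U4)) := hy
    obtain ⟨g0, g1, g2, g3, g4⟩ := e2 y.1 hy'.2.1 _ l hyv'.2.1
    obtain ⟨s1, s2⟩ := e4 y.1 hy'.2.2.2
    have hl := abs_nonneg l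
    have hκv : 0 ≤ κ * ‖v‖ := by positivity
    rw [f1, f2, g0, g1, g2]
    refine ⟨?_, ?_, ?_⟩
    · have hY : ‖y.2 + (v - inner ℝ v p₀ • p₀) - g (y.1 + (inner ℝ v p₀ • e1 + l • us)) •
          m τ y.1 - (y.2 - g y.1 • m τ y.1) - (v - inner ℝ v p₀ • p₀)‖ ≤
          δ * ‖m τ y.1‖ * |l| := by
        have e : y.2 + (v - inner ℝ v p₀ • p₀) - g (y.1 + (inner ℝ v p₀ • e1 + l • us)) •
            m τ y.1 - (y.2 - g y.1 • m τ y.1) - (v - inner ℝ v p₀ • p₀) =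
            -((g (y.1 + (inner ℝ v p₀ • e1 + l • us)) - g y.1) • m τ y.1) := by module
        rw [e, norm_neg, norm_smul, Real.norm_eq_abs]
        calc _ ≤ δ * |l| * ‖m τ y.1‖ := mul_le_mul_of_nonneg_right g3 (norm_nonneg _)
          _ = _ := by ring
      unfold foldw
      refine (foldTip_est (e1' y.1 hy'.1) hp₀ rfl (e3 y.1 hy'.2.2.1) hY g4).trans ?_
      have := mul_le_mul_of_nonneg_right s1 hl
      linarith
    · rw [← mul_sub, abs_mul]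
      have h5 := mul_le_mul_of_nonneg_left g3 (abs_nonneg (ρ τ))
      have h6 := mul_le_mul_of_nonneg_right s2 hl
      linarith
    · rw [sub_self, norm_zero, mul_zero]
      positivity

/-- **The layers of the fold**, `ς = ± 1` the sign of the layer. -/
theorem foldDir_layer (H : FoldLoc s τ₀ x₀.1 m ph nw z g ρ) (hτ₀ : τ₀ ∈ s) {us : S}
    {δ δ' : ℝ} (hδ : 0 ≤ δ) (hδ' : 0 ≤ δ') (hρ : 0 ≤ ρ τ₀)
    (hsm : δ * (2 * ‖m τ₀ x₀.1‖ + ρ τ₀) + 2 * δ' < 1 / 8)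
    (hd : ∃ U ∈ 𝓝 x₀.1, ∀ᶠ τ in 𝓝[s] τ₀, ∀ y ∈ U, ∀ l : ℝ, y + l • us ∈ U →
      m τ (y + l • us) = m τ y ∧ ph τ (y + l • us) = ph τ y ∧
      nw τ (y + l • us) = nw τ y ∧ |g (y + l • us) - g y| ≤ δ * |l| ∧
      |z τ (y + l • us) - z τ y| ≤ δ' * |l|)
    {ς : ℝ} (hς : ς = 1 ∨ ς = -1)
    (hlam : 0 < ς * inner ℝ (x₀.2 - g x₀.1 • m τ₀ x₀.1) (ph τ₀ x₀.1)) :
    SheetDir s τ₀ x₀ (fun τ x => foldw (z τ x.1) (ph τ x.1) (x.2 - g x.1 • m τ x.1))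
      (fun τ x => nw τ x.1) (fun τ x => ρ τ * g x.1) (layD S ς (ph τ₀ x₀.1)) (us, 0) where
  cw := H.cw
  cn := cwa_fst H.cnw
  nn := by
    obtain ⟨U, hU, hev⟩ := H.nnw
    rw [nhdsWithin_prod_eq, nhdsWithin_univ]
    have hU' : ∀ᶠ x : S × V in 𝓝 x₀, x.1 ∈ U := continuous_fst.continuousAt.eventually hU
    filter_upwards [hev.prod_mk hU'] with p hp
    exact hp.1 p.2.1 hp.2
  dir := fun κ hκ => by
    set p₀ := ph τ₀ x₀.1 with hp₀d
    obtain ⟨U1, hU1, h1⟩ := H.nph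
    have hp₀ : ‖p₀‖ = 1 := h1.self_of_nhdsWithin hτ₀ x₀.1 (mem_of_mem_nhds hU1)
    obtain ⟨U2, hU2, h2⟩ := hd
    obtain ⟨U3, hU3, h3⟩ := ev_prod (Q := fun τ y => ‖ph τ y - p₀‖ ≤ κ / 8) (by
      have := H.cph.eventually (Metric.ball_mem_nhds _ (by positivity : 0 < κ / 8))
      filter_upwards [this] with p hp
      have h := Metric.mem_ball.mp hp
      rw [dist_eq_norm] at h
      exact h.le)
    obtain ⟨U4, hU4, h4⟩ := H.small (x₀ := x₀) hδ hδ' hρ hsm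
    obtain ⟨U5, hU5, h5⟩ := ev_prod (E := S × V) (x₀ := x₀) (s := s) (t₀ := τ₀)
      (Q := fun τ y => 0 < ς * inner ℝ (y.2 - g y.1 • m τ y.1) (ph τ y.1)) (by
      have c1 := cwa_fst (V := V) (x₀ := x₀) H.cm
      have c2 := cwa_fst (V := V) (x₀ := x₀) H.cph
      have c4 : ContinuousWithinAt (fun p : T × (S × V) => g p.2.1) (s ×ˢ univ) (τ₀, x₀) := by
        have h1 : ContinuousAt (fun p : T × (S × V) => g p.2.1) (τ₀, x₀) :=
          ContinuousAt.comp (g := g) (f := fun p : T × (S × V) => p.2.1) (x := (τ₀, x₀)) H.cg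
            (by fun_prop)
        exact h1.continuousWithinAt
      have h2 : ContinuousWithinAt (fun p : T × (S × V) => p.2.2) (s ×ˢ univ) (τ₀, x₀) := by
        fun_prop
      have c6 : ContinuousWithinAt (fun p : T × (S × V) =>
          ς * inner ℝ (p.2.2 - g p.2.1 • m p.1 p.2.1) (ph p.1 p.2.1)) (s ×ˢ univ) (τ₀, x₀) :=
        continuousWithinAt_const.mul ((h2.sub (c4.smul c1)).inner (𝕜 := ℝ) c2)
      exact c6.eventually (lt_mem_nhds hlam))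
    refine ⟨Prod.fst ⁻¹' (U1 ∩ (U2 ∩ (U3 ∩ U4))) ∩ U5, inter_mem
      (continuous_fst.continuousAt.preimage_mem_nhds
        (inter_mem hU1 (inter_mem hU2 (inter_mem hU3 hU4)))) hU5, ?_⟩
    filter_upwards [h1, h2, h3, h4, h5] with τ e1' e2 e3 e4 e5 y hy v l hyv
    have f1 : (y + (layD S ς p₀ v + l • ((us, 0) : S × V))).1 = y.1 + l • us := by
      rw [layD_apply]; simp
    have f2 : (y + (layD S ς p₀ v + l • ((us, 0) : S × V))).2 =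
        y.2 + (v + ((ς - 1) * inner ℝ v p₀) • p₀) := by
      rw [layD_apply]; simp
    have hyv' : (y + (layD S ς p₀ v + l • ((us, 0) : S × V))).1 ∈ U1 ∩ (U2 ∩ (U3 ∩ U4)) := hyv.1
    have k1 := e5 y hy.2
    have k2 := e5 _ hyv.2
    rw [f1] at hyv'
    rw [f1, f2] at k2
    have hy' : y.1 ∈ U1 ∩ (U2 ∩ (U3 ∩ U4)) := hy.1
    obtain ⟨g0, g1, g2, g3, g4⟩ := e2 y.1 hy'.2.1 l hyv'.2.1
    rw [g0, g1] at k2
    obtain ⟨s1, s2⟩ := e4 y.1 hy'.2.2.2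
    have hl := abs_nonneg l
    have hκv : 0 ≤ κ * ‖v‖ := by positivity
    have habs : ∀ t : ℝ, 0 < ς * t → |t| = ς * t := by
      intro t ht
      rcases hς with rfl | rfl
      · rw [one_mul] at ht ⊢; exact abs_of_pos ht
      · rw [neg_one_mul] at ht ⊢; exact abs_of_neg (by linarith)
    rw [f1, f2, g0, g1, g2]
    refine ⟨?_, ?_, ?_⟩
    · have hY : ‖y.2 + (v + ((ς - 1) * inner ℝ v p₀) • p₀) - g (y.1 + l • us) •
          m τ y.1 - (y.2 - g y.1 • m τ y.1) - (v + ((ς - 1) * inner ℝ v p₀) • p₀)‖ ≤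
          δ * ‖m τ y.1‖ * |l| := by
        have e : y.2 + (v + ((ς - 1) * inner ℝ v p₀) • p₀) - g (y.1 + l • us) •
            m τ y.1 - (y.2 - g y.1 • m τ y.1) - (v + ((ς - 1) * inner ℝ v p₀) • p₀) =
            -((g (y.1 + l • us) - g y.1) • m τ y.1) := by module
        rw [e, norm_neg, norm_smul, Real.norm_eq_abs]
        calc _ ≤ δ * |l| * ‖m τ y.1‖ := mul_le_mul_of_nonneg_right g3 (norm_nonneg _)
          _ = _ := by ring
      unfold foldw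
      refine (foldLayer_est (e1' y.1 hy'.1) hp₀ hς rfl (e3 y.1 hy'.2.2.1) (habs _ k1)
        (habs _ k2) hY g4).trans ?_
      have := mul_le_mul_of_nonneg_right s1 hl
      linarith
    · rw [← mul_sub, abs_mul]
      have h5 := mul_le_mul_of_nonneg_left g3 (abs_nonneg (ρ τ))
      have h6 := mul_le_mul_of_nonneg_right s2 hl
      linarith
    · rw [sub_self, norm_zero, mul_zero]
      positivity

end Vale.Agent.P268.T
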