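import Vale.Agent.P268.T.H278.FoldDir
import Vale.Agent.P268.T.H327.Geo
import Vale.Agent.P268.T.H545.HPAdm

/-!
# P268, topological half: the directions of the fold plate of the hairpin form
-/

set_option linter.unusedSectionVars false

namespace Vale.Agent.P268.T

open Set Filter Topology Metric

section General

variable {T S V : Type*} [TopologicalSpace T] [NormedAddCommGroup S] [NormedSpace ℝ S]
  [NormedAddCommGroup V] [InnerProductSpace ℝ V] {s : Set T} {τ₀ : T} {x₀ : S × V}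
  {m ph nw : T → S → V} {z : T → S → ℝ} {g : S → ℝ} {ρ : T → ℝ}

/-- **The fold at its tip**, with a slope of `z` tending to one. -/
theorem foldDir_tip' (H : FoldLoc s τ₀ x₀.1 m ph nw z g ρ) (hτ₀ : τ₀ ∈ s) {e1 us : S}
    {δ δ' : ℝ} (hδ : 0 ≤ δ) (hδ' : 0 ≤ δ') (hρ : 0 ≤ ρ τ₀)
    (hsm : δ * (2 * ‖m τ₀ x₀.1‖ + ρ τ₀) + 2 * δ' < 1 / 8)
    (hd : ∃ U ∈ 𝓝 x₀.1, ∀ᶠ τ in 𝓝[s] τ₀, ∀ y ∈ U, ∀ t l : ℝ, y + (t • e1 + l • us) ∈ U →
      m τ (y + (t • e1 + l • us)) = m τ y ∧ ph τ (y + (t • e1 + l • us)) = ph τ y ∧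
      nw τ (y + (t • e1 + l • us)) = nw τ y ∧
      |g (y + (t • e1 + l • us)) - g y| ≤ δ * |l|)
    (hz : ∀ κ : ℝ, 0 < κ → ∃ U ∈ 𝓝 x₀.1, ∀ᶠ τ in 𝓝[s] τ₀, ∀ y ∈ U, ∀ t l : ℝ,
      y + (t • e1 + l • us) ∈ U →
      |z τ (y + (t • e1 + l • us)) - z τ y - t| ≤ κ * |t| + δ' * |l|) :
    SheetDir s τ₀ x₀ (fun τ x => foldw (z τ x.1) (ph τ x.1) (x.2 - g x.1 • m τ x.1))
      (fun τ x => nw τ x.1) (fun τ x => ρ τ * g x.1) (tipD e1 (ph τ₀ x₀.1)) (us, 0) where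
  cw := H.cw
  cn := cwa_fst H.cnw
  nn := by
    obtain ⟨U, hU, hev⟩ := H.nnw
    rw [nhdsWithin_prod_eq, nhdsWithin_univ]
    have hU' : ∀ᶠ x : S × V in 𝓝 x₀, x.1 ∈ U := continuous_fst.continuousAt.eventually hU
    filter_upwards [hev.prod_mk hU'] with p hp
    exact hp.1 p.2.1 hp.2
  dir := fun κ hκ => by
    set p₀ := ph τ₀ x₀.1 with hp₀d
    obtain ⟨U1, hU1, h1⟩ := H.nph
    have hp₀ : ‖p₀‖ = 1 := h1.self_of_nhdsWithin hτ₀ x₀.1 (mem_of_mem_nhds hU1)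
    obtain ⟨U2, hU2, h2⟩ := hd
    obtain ⟨U3, hU3, h3⟩ := ev_prod (Q := fun τ y => ‖ph τ y - p₀‖ ≤ κ / 10) (by
      have := H.cph.eventually (Metric.ball_mem_nhds _ (by positivity : 0 < κ / 10))
      filter_upwards [this] with p hp
      have h := Metric.mem_ball.mp hp
      rw [dist_eq_norm] at h
      exact h.le)
    obtain ⟨U4, hU4, h4⟩ := H.small (x₀ := x₀) hδ hδ' hρ hsm
    obtain ⟨U5, hU5, h5⟩ := hz (κ / 2) (by positivity)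
    refine ⟨Prod.fst ⁻¹' (U1 ∩ (U2 ∩ (U3 ∩ (U4 ∩ U5)))),
      continuous_fst.continuousAt.preimage_mem_nhds
      (inter_mem hU1 (inter_mem hU2 (inter_mem hU3 (inter_mem hU4 hU5)))), ?_⟩
    filter_upwards [h1, h2, h3, h4, h5] with τ e1' e2 e3 e4 e5 y hy v l hyv
    have f1 : (y + (tipD e1 p₀ v + l • ((us, 0) : S × V))).1 =
        y.1 + (inner ℝ v p₀ • e1 + l • us) := by
      rw [tipD_apply]; simp
    have f2 : (y + (tipD e1 p₀ v + l • ((us, 0) : S × V))).2 = y.2 + (v - inner ℝ v p₀ • p₀) := by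
      rw [tipD_apply]; simp
    have hyv' : (y + (tipD e1 p₀ v + l • ((us, 0) : S × V))).1 ∈
      U1 ∩ (U2 ∩ (U3 ∩ (U4 ∩ U5))) := hyv
    rw [f1] at hyv'
    have hy' : y.1 ∈ U1 ∩ (U2 ∩ (U3 ∩ (U4 ∩ U5))) := hy
    obtain ⟨g0, g1, g2, g3⟩ := e2 y.1 hy'.2.1 _ l hyv'.2.1
    have g4 := e5 y.1 hy'.2.2.2.2 _ l hyv'.2.2.2.2
    obtain ⟨s1, s2⟩ := e4 y.1 hy'.2.2.2.1
    have hl := abs_nonneg l
    have hκv : 0 ≤ κ * ‖v‖ := by positivity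
    have hαv : |inner ℝ v p₀| ≤ ‖v‖ :=
      (abs_real_inner_le_norm _ _).trans (by rw [hp₀, mul_one])
    rw [f1, f2, g0, g1, g2]
    refine ⟨?_, ?_, ?_⟩
    · have hY : ‖y.2 + (v - inner ℝ v p₀ • p₀) - g (y.1 + (inner ℝ v p₀ • e1 + l • us)) •
          m τ y.1 - (y.2 - g y.1 • m τ y.1) - (v - inner ℝ v p₀ • p₀)‖ ≤
          δ * ‖m τ y.1‖ * |l| := by
        have e : y.2 + (v - inner ℝ v p₀ • p₀) - g (y.1 + (inner ℝ v p₀ • e1 + l • us)) •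
            m τ y.1 - (y.2 - g y.1 • m τ y.1) - (v - inner ℝ v p₀ • p₀) =
            -((g (y.1 + (inner ℝ v p₀ • e1 + l • us)) - g y.1) • m τ y.1) := by module
        rw [e, norm_neg, norm_smul, Real.norm_eq_abs]
        calc _ ≤ δ * |l| * ‖m τ y.1‖ := mul_le_mul_of_nonneg_right g3 (norm_nonneg _)
          _ = _ := by ring
      unfold foldw
      refine (foldTip_est (e1' y.1 hy'.1) hp₀ rfl (e3 y.1 hy'.2.2.1) hY g4).trans ?_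
      have h6 := mul_le_mul_of_nonneg_right s1 hl
      have h7 : κ / 2 * |inner ℝ v p₀| ≤ κ / 2 * ‖v‖ :=
        mul_le_mul_of_nonneg_left hαv (by positivity)
      linarith
    · rw [← mul_sub, abs_mul]
      have h5 := mul_le_mul_of_nonneg_left g3 (abs_nonneg (ρ τ))
      have h6 := mul_le_mul_of_nonneg_right s2 hl
      linarith
    · rw [sub_self, norm_zero, mul_zero]
      positivity

end General

section HP

variable {T V κ ι : Type*} [TopologicalSpace T] [NormedAddCommGroup V] [InnerProductSpace ℝ V]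
  [Fintype ι] [DecidableEq ι] {s : Set T} {i₀ : ι} {e : V} {ε R M K : T → ℝ}
  {D : T → HData κ (ι → ℝ) V} {τ₀ : T}

/-- Continuity at a point of the base of a function of the chart. -/
theorem cwa_kapH {P W : Type*} [NormedAddCommGroup P] [NormedSpace ℝ P] [TopologicalSpace W]
    {c : T → P → W}
    (hc : ContinuousOn (fun q : T × P => c q.1 q.2) (s ×ˢ closedBall 0 1)) (hτ₀ : τ₀ ∈ s)
    {s₀ : ℝ × P} (hs₀ : s₀ ≠ 0) :
    ContinuousWithinAt (fun p : T × (ℝ × P) => c p.1 (kap p.2)) (s ×ˢ univ) (τ₀, s₀) := by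
  have h1 : ContinuousAt (fun p : T × (ℝ × P) => (p.1, kap p.2)) (τ₀, s₀) := by
    refine continuousAt_fst.prodMk ?_
    exact ContinuousAt.comp (f := fun p : T × (ℝ × P) => p.2) (g := kap)
      (continuousAt_kap hs₀) continuousAt_snd
  have h3 := hc (τ₀, kap s₀) ⟨hτ₀, kap_mem _⟩
  exact ContinuousWithinAt.comp (f := fun p : T × (ℝ × P) => (p.1, kap p.2))
    (g := fun q : T × P => c q.1 q.2) (t := s ×ˢ closedBall 0 1) (x := (τ₀, s₀)) h3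
    h1.continuousWithinAt (fun p hp => ⟨hp.1, kap_mem _⟩)

/-- Continuity of `K q`. -/
theorem cwa_Kwq (cK : ContinuousOn K s) (hD : HPFam s i₀ e D) (hτ₀ : τ₀ ∈ s)
    (s₀ : ℝ × (ι → ℝ)) :
    ContinuousWithinAt (fun p : T × (ℝ × (ι → ℝ)) => K p.1 * wq i₀ (D p.1).c p.2) (s ×ˢ univ)
      (τ₀, s₀) := by
  have hK : ContinuousOn (fun p : T × (ℝ × (ι → ℝ)) => K p.1) (s ×ˢ univ) :=
    cK.comp continuousOn_fst fun p hp => hp.1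
  have hc : ContinuousOn (fun p : T × (ℝ × (ι → ℝ)) => (D p.1).c) (s ×ˢ univ) :=
    hD.cc.comp continuousOn_fst fun p hp => hp.1
  have h2 : Continuous fun p : T × (ℝ × (ι → ℝ)) => p.2.2 i₀ := by fun_prop
  have h3 : Continuous fun p : T × (ℝ × (ι → ℝ)) => max |p.2.1| (2 * ‖p.2.2‖) / 2 := by
    fun_prop
  have h4 : ContinuousOn (fun p : T × (ℝ × (ι → ℝ)) => K p.1 * wq i₀ (D p.1).c p.2)
      (s ×ˢ univ) := by
    unfold wq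
    exact hK.mul (h2.continuousOn.sub (hc.mul h3.continuousOn))
  exact h4 (τ₀, s₀) ⟨hτ₀, mem_univ _⟩

/-- Continuity of `r₀ g`. -/
theorem cwa_r0 (hD : HPFam s i₀ e D) (hτ₀ : τ₀ ∈ s) (s₀ : ℝ × (ι → ℝ)) :
    ContinuousWithinAt (fun p : T × (ℝ × (ι → ℝ)) => -((D p.1).r0 * ‖p.2‖)) (s ×ˢ univ)
      (τ₀, s₀) := by
  have hr : ContinuousOn (fun p : T × (ℝ × (ι → ℝ)) => (D p.1).r0) (s ×ˢ univ) :=
    hD.cr.comp continuousOn_fst fun p hp => hp.1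
  have hn : Continuous fun p : T × (ℝ × (ι → ℝ)) => ‖p.2‖ := by fun_prop
  exact (hr.mul hn.continuousOn).neg (τ₀, s₀) ⟨hτ₀, mem_univ _⟩

/-- The data of the fold plate are continuous. -/
theorem HPFam.foldLoc (hD : HPFam s i₀ e D) (cε : ContinuousOn ε s) (cK : ContinuousOn K s)
    (hτ₀ : τ₀ ∈ s) {s₀ : ℝ × (ι → ℝ)} (hs₀ : s₀ ≠ 0) :
    FoldLoc s τ₀ s₀ (fun τ y => (D τ).m (wl i₀ (D τ).c (kap y)))
      (fun τ y => (D τ).ph (wl i₀ (D τ).c (kap y)))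
      (fun τ y => (D τ).nw (wl i₀ (D τ).c (kap y)))
      (fun τ y => (D τ).dep i₀ (K τ) y) (fun y => ‖y‖) ε where
  cm := cwa_kapH (c := fun τ x => (D τ).m (wl i₀ (D τ).c x)) hD.continuousOn_m hτ₀ hs₀
  cph := cwa_kapH (c := fun τ x => (D τ).ph (wl i₀ (D τ).c x)) hD.continuousOn_ph hτ₀ hs₀
  cnw := cwa_kapH (c := fun τ x => (D τ).nw (wl i₀ (D τ).c x)) hD.continuousOn_nw hτ₀ hs₀
  cz := by
    have h1 : ContinuousWithinAt (fun p : T × (ℝ × (ι → ℝ)) =>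
        max (K p.1 * wq i₀ (D p.1).c p.2) (-((D p.1).r0 * ‖p.2‖))) (s ×ˢ univ) (τ₀, s₀) :=
      (cwa_Kwq cK hD hτ₀ s₀).max (cwa_r0 hD hτ₀ s₀)
    exact h1
  cg := continuous_norm.continuousAt
  cρ := cε τ₀ hτ₀
  nph := ⟨univ, univ_mem, by
    filter_upwards [self_mem_nhdsWithin] with τ hτ y _
    exact hD.nph τ hτ _ (wl_mem (hD.hc τ hτ).le (norm_kap_le _)) (wl_apply _ _ _)⟩
  nnw := ⟨univ, univ_mem, by
    filter_upwards [self_mem_nhdsWithin] with τ hτ y _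
    exact hD.nnw τ hτ _ (wl_mem (hD.hc τ hτ).le (norm_kap_le _)) (wl_apply _ _ _)⟩

/-- The smallness conditions. -/
theorem hp_small (hD : HPFam s i₀ e D) (hτ₀ : τ₀ ∈ s)
    (hA : HAdm i₀ (ε τ₀) (R τ₀) (M τ₀) (K τ₀) (D τ₀)) {δ : ℝ} (hδ : 0 ≤ δ)
    (hδR : δ * R τ₀ ≤ 1 / 64) (x : ℝ × (ι → ℝ)) :
    δ * (2 * ‖(D τ₀).m (wl i₀ (D τ₀).c (kap x))‖ + ε τ₀) + 2 * (1 / 100) < 1 / 8 ∧
      δ * (D τ₀).r0 < 1 / 100 := by
  have h1 := hA.hm (wl i₀ (D τ₀).c (kap x))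
    (mem_closedBall_zero_iff.mpr (wl_mem (hD.hc τ₀ hτ₀).le (norm_kap_le _))) (wl_apply _ _ _)
  have h2 := hA.hR
  have h3 := hD.hr τ₀ hτ₀
  have h4 := norm_nonneg ((D τ₀).m (wl i₀ (D τ₀).c (kap x)))
  have h5 : δ * (2 * ‖(D τ₀).m (wl i₀ (D τ₀).c (kap x))‖ + ε τ₀) ≤ δ * (3 * R τ₀) :=
    mul_le_mul_of_nonneg_left (by linarith) hδ
  have h6 : δ * (2 * (D τ₀).r0) ≤ δ * R τ₀ := mul_le_mul_of_nonneg_left (by linarith) hδ
  constructor <;> linarith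

/-- The depth function moves slowly with the norm. -/
theorem abs_dep_sub_le (D : HData κ (ι → ℝ) V) (hr : 0 ≤ D.r0) (K : ℝ) {y y' : ℝ × (ι → ℝ)}
    (h : wq i₀ D.c y' = wq i₀ D.c y) :
    |D.dep i₀ K y' - D.dep i₀ K y| ≤ D.r0 * |‖y'‖ - ‖y‖| := by
  unfold HData.dep
  rw [h]
  refine (abs_max_sub_max_le_max _ _ _ _).trans (max_le ?_ ?_)
  · rw [sub_self, abs_zero]
    positivity
  · have : -(D.r0 * ‖y'‖) - -(D.r0 * ‖y‖) = -(D.r0 * (‖y'‖ - ‖y‖)) := by ring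
    rw [this, abs_neg, abs_mul, abs_of_nonneg hr]

/-- **The layers of the fold plate.** -/
theorem hfold_layer (cε : ContinuousOn ε s) (cK : ContinuousOn K s) (hD : HPFam s i₀ e D)
    (hτ₀ : τ₀ ∈ s) (hA : HAdm i₀ (ε τ₀) (R τ₀) (M τ₀) (K τ₀) (D τ₀))
    {x₀ : (ℝ × (ι → ℝ)) × V} (hx₀ : x₀.1 ≠ 0) {us : ℝ × (ι → ℝ)} {δ : ℝ}
    (HD : HDir i₀ x₀.1 us δ) (hδ : 0 ≤ δ) (hδR : δ * R τ₀ ≤ 1 / 64) {ς : ℝ}
    (hς : ς = 1 ∨ ς = -1)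
    (hla : 0 < ς * inner ℝ (x₀.2 - ‖x₀.1‖ • (D τ₀).m (wl i₀ (D τ₀).c (kap x₀.1)))
      ((D τ₀).ph (wl i₀ (D τ₀).c (kap x₀.1)))) :
    SheetDir s τ₀ x₀ (fun τ x => (hplates i₀ e ε R M K D).w τ .fold x)
      (fun τ x => (hplates i₀ e ε R M K D).ν τ .fold x)
      (fun τ x => (hplates i₀ e ε R M K D).r τ .fold x)
      (layD (ℝ × (ι → ℝ)) ς ((D τ₀).ph (wl i₀ (D τ₀).c (kap x₀.1)))) (us, (0 : V)) := by
  obtain ⟨k1, k2⟩ := hp_small hD hτ₀ hA hδ hδR x₀.1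
  refine foldDir_layer (hD.foldLoc cε cK hτ₀ hx₀) hτ₀ hδ (δ' := 1 / 100) (by norm_num)
    hA.hε.le k1 ?_ hς hla
  obtain ⟨U, hU, H⟩ := HD.base
  have c1 : Tendsto (fun τ => δ * (D τ).r0) (𝓝[s] τ₀) (𝓝 (δ * (D τ₀).r0)) :=
    continuousWithinAt_const.mul (hD.cr τ₀ hτ₀)
  refine ⟨U, hU, ?_⟩
  filter_upwards [self_mem_nhdsWithin, c1.eventually (gt_mem_nhds k2)] with τ hτ h1 y hy l hl
  obtain ⟨-, -, g3, g4, g5⟩ := H y hy l hl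
  rw [g3]
  refine ⟨rfl, rfl, rfl, g5, ?_⟩
  refine (abs_dep_sub_le (D τ) (hD.hr τ hτ).le (K τ) (g4 _)).trans ?_
  have h2 : (D τ).r0 * |‖y + l • us‖ - ‖y‖| ≤ (D τ).r0 * (δ * |l|) :=
    mul_le_mul_of_nonneg_left g5 (hD.hr τ hτ).le
  have h3 : δ * (D τ).r0 * |l| ≤ 1 / 100 * |l| :=
    mul_le_mul_of_nonneg_right h1.le (abs_nonneg l)
  linarith

/-- **The tip of the fold plate.** -/
theorem hfold_tip (cε : ContinuousOn ε s) (cK : ContinuousOn K s) (hD : HPFam s i₀ e D)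
    (hτ₀ : τ₀ ∈ s) (hA : HAdm i₀ (ε τ₀) (R τ₀) (M τ₀) (K τ₀) (D τ₀))
    {x₀ : (ℝ × (ι → ℝ)) × V} (hx₀ : x₀.1 ≠ 0) {us : ℝ × (ι → ℝ)} {δ : ℝ}
    (HD : HDir i₀ x₀.1 us δ) (hδ : 0 ≤ δ) (hδR : δ * R τ₀ ≤ 1 / 64)
    (hk : |kap x₀.1 i₀| < 1) (hq : -((D τ₀).r0 * ‖x₀.1‖) < K τ₀ * wq i₀ (D τ₀).c x₀.1) :
    SheetDir s τ₀ x₀ (fun τ x => (hplates i₀ e ε R M K D).w τ .fold x)
      (fun τ x => (hplates i₀ e ε R M K D).ν τ .fold x)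
      (fun τ x => (hplates i₀ e ε R M K D).r τ .fold x)
      (tipD ((0 : ℝ), (Pi.single i₀ (1 / K τ₀) : ι → ℝ))
        ((D τ₀).ph (wl i₀ (D τ₀).c (kap x₀.1)))) (us, (0 : V)) := by
  obtain ⟨k1, k2⟩ := hp_small hD hτ₀ hA hδ hδR x₀.1
  have hK := hA.hK
  obtain ⟨U, hU, H⟩ := HD.wall hk
  have e1 : ∀ t l : ℝ, t • ((0 : ℝ), (Pi.single i₀ (1 / K τ₀) : ι → ℝ)) + l • us =
      ((0 : ℝ), (Pi.single i₀ (t / K τ₀) : ι → ℝ)) + l • us := by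
    intro t l
    rw [Prod.smul_mk, smul_zero, ← Pi.single_smul, smul_eq_mul, mul_one_div]
  refine foldDir_tip' (hD.foldLoc cε cK hτ₀ hx₀) hτ₀ hδ (δ' := 1 / 100) (by norm_num)
    hA.hε.le k1 ?_ ?_
  · refine ⟨U, hU, Eventually.of_forall fun τ y hy t l hl => ?_⟩
    rw [e1] at hl ⊢
    obtain ⟨-, -, g3, -, g5⟩ := H y hy _ l hl
    rw [g3]
    exact ⟨rfl, rfl, rfl, g5⟩
  · intro θ hθ
    obtain ⟨U', hU', hev⟩ := ev_prod (Q := fun τ (y : ℝ × (ι → ℝ)) =>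
      -((D τ).r0 * ‖y‖) < K τ * wq i₀ (D τ).c y)
      (Tendsto.eventually_lt (cwa_r0 hD hτ₀ x₀.1) (cwa_Kwq cK hD hτ₀ x₀.1) hq)
    have c1 : Tendsto (fun τ => |K τ / K τ₀ - 1|) (𝓝[s] τ₀) (𝓝 |K τ₀ / K τ₀ - 1|) :=
      (((cK τ₀ hτ₀).div_const _).sub continuousWithinAt_const).abs
    rw [div_self hK.ne', sub_self, abs_zero] at c1
    refine ⟨U ∩ U', inter_mem hU hU', ?_⟩
    filter_upwards [hev, c1.eventually (gt_mem_nhds hθ)] with τ h1 h2 y hy t l hl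
    rw [e1] at hl ⊢
    obtain ⟨-, -, -, g4, -⟩ := H y hy.1 _ l hl.1
    have h3 := h1 y hy.2
    have h4 := h1 _ hl.2
    show |max (K τ * wq i₀ (D τ).c _) (-((D τ).r0 * _)) -
      max (K τ * wq i₀ (D τ).c y) (-((D τ).r0 * ‖y‖)) - t| ≤ _
    rw [max_eq_left h3.le, max_eq_left h4.le, g4]
    have h5 : K τ * (wq i₀ (D τ).c y + t / K τ₀) - K τ * wq i₀ (D τ).c y - t =
        (K τ / K τ₀ - 1) * t := by
      field_simp
      ring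
    rw [h5, abs_mul]
    have h6 : |K τ / K τ₀ - 1| * |t| ≤ θ * |t| := mul_le_mul_of_nonneg_right h2.le (abs_nonneg _)
    have h7 := abs_nonneg l
    linarith

end HP

end Vale.Agent.P268.T
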