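import Vale.Agent.P268.T.H278.PairReg
import Vale.Agent.P268.T.H240.LDef

/-!
# P268, topological half: the left family at the zeros where neither the hairpin nor the sheet `t`
is active
-/

set_option linter.unusedSectionVars false

namespace Vale.Agent.P268.T.H240

open Set Filter Topology Metric

variable {T V κ ι : Type*} [TopologicalSpace T] [NormedAddCommGroup V] [InnerProductSpace ℝ V]
  [Fintype ι] [DecidableEq ι] {i₀ : ι} {e : V} {j : κ} {ε R M K : ℝ}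
  {D : LData κ (ι → ℝ) V}

theorem LAdm.posr (h : LAdm i₀ e j ε R M K D) : 0 < D.r0 := by
  have h1 := h.hε
  have h2 := h.hr
  linarith

theorem LAdm.posR (h : LAdm i₀ e j ε R M K D) : 0 < R := h.hε.trans_le h.hR

theorem LAdm.posM (h : LAdm i₀ e j ε R M K D) : 0 < M := by
  have h1 := h.posR
  have h2 := h.hM
  linarith

theorem LAdm.posK (h : LAdm i₀ e j ε R M K D) : 0 < K := by
  have h1 := h.posr
  have h2 := h.hK
  linarith

/-- Left of the wall. -/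
theorem LAdm.left (h : LAdm i₀ e j ε R M K D) {s : ℝ × (ι → ℝ)} (hs : s ≠ 0)
    (h0 : 0 ≤ ldom i₀ M K D.r0 s) : s.2 i₀ < 0 ∧ kap s i₀ < 0 ∧ lf i₀ 0 (kap s) = kap s := by
  have hM := h.posM
  have hK := h.posK
  have hr := h.posr
  have hg : 0 < ‖s‖ := norm_pos_iff.mpr hs
  have h1 : 0 ≤ M * (-(K * s.2 i₀) - 3 * D.r0 * ‖s‖) := (le_min_iff.mp h0).2
  have h2 : 0 ≤ -(K * s.2 i₀) - 3 * D.r0 * ‖s‖ := (mul_nonneg_iff_of_pos_left hM).mp h1
  have h3 : 0 < 3 * D.r0 * ‖s‖ := by positivity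
  have h4 : s.2 i₀ < 0 := by
    by_contra h5
    have : 0 ≤ K * s.2 i₀ := mul_nonneg hK.le (not_lt.mp h5)
    linarith
  have h5 : kap s i₀ < 0 := by
    rw [kap_apply]
    have := gmax_pos hs
    exact mul_neg_of_pos_of_neg (by positivity) h4
  exact ⟨h4, h5, lf_of_le h5.le⟩

/-- The slab is positive where a small plate is positive or zero, if `u₀ ≤ ‖p‖ / 2`. -/
theorem slab_pos_of {R M : ℝ} (hM : 0 < M) {s : ℝ × (ι → ℝ)} (hs : s ≠ 0) {v : V}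
    (hv : ‖v‖ < R * ‖s‖) (h1 : 0 ≤ s.1 - ‖s.2‖ / 2) (h2 : s.1 - ‖s.2‖ / 2 ≤ 0) :
    0 < min (R * ‖s‖ - ‖v‖) (M * (‖s.2‖ - |s.1|)) := by
  have h3 : s.1 = ‖s.2‖ / 2 := by linarith
  have h4 : 0 < ‖s.2‖ := by
    rcases (norm_nonneg s.2).lt_or_eq with h5 | h5
    · exact h5
    · exfalso
      apply hs
      refine Prod.ext ?_ (norm_eq_zero.mp h5.symm)
      rw [h3, ← h5]; simp
  refine lt_min (by linarith) (mul_pos hM ?_)
  rw [h3, abs_of_pos (by linarith)]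
  linarith

theorem norm_lt_of_tp {g ε R : ℝ} {v c : V} (hg : 0 < g) (hε : 0 < ε) (hc : ‖c‖ + 2 * ε < R)
    (h : 0 ≤ ε * g - ‖v - g • c‖) : ‖v‖ < R * g := by
  have h4 : ‖v‖ ≤ ‖v - g • c‖ + ‖g • c‖ := by
    have := norm_add_le (v - g • c) (g • c)
    rwa [sub_add_cancel] at this
  rw [norm_smul, Real.norm_eq_abs, abs_of_pos hg] at h4
  have h5 : (‖c‖ + 2 * ε) * g < R * g := mul_lt_mul_of_pos_right hc hg
  have h6 : 0 < ε * g := mul_pos hε hg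
  linarith

theorem dist_le_of_tp {g ε : ℝ} {v c c' : V} (hg : 0 < g) (h : 0 ≤ ε * g - ‖v - g • c‖)
    (h' : 0 ≤ ε * g - ‖v - g • c'‖) : ‖c - c'‖ ≤ 2 * ε := by
  have h1 : g * ‖c - c'‖ ≤ g * (2 * ε) := by
    calc g * ‖c - c'‖ = ‖g • (c - c')‖ := by rw [norm_smul, Real.norm_eq_abs, abs_of_pos hg]
      _ = ‖(v - g • c') - (v - g • c)‖ := by congr 1; rw [smul_sub]; abel
      _ ≤ ‖v - g • c'‖ + ‖v - g • c‖ := norm_sub_le _ _
      _ ≤ g * (2 * ε) := by linarith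
  exact le_of_mul_le_mul_left h1 hg

theorem lT_le {r0 K u g w z : ℝ} (hr : 0 ≤ r0 * g) : lT r0 K u g w z ≤ r0 * g :=
  max_le hr (min_le_left _ _)

/-- Near the sheet `k` at the end of its domain the hairpin coordinate is the one of `k`. -/
theorem lW_of_k {r0 K θ u g w z l ε : ℝ} (hg : 0 < g) (hε : 0 < ε) (hr : 32 * ε ≤ r0)
    (hθ : θ ∈ Icc (0 : ℝ) 1) (hw : K * w ≤ -(3 * r0 * g)) (hl : |l - 2 * r0 * g| ≤ ε * g) :
    lW r0 K θ u g w z l = l - 2 * r0 * g := by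
  have h1 : 0 < r0 * g := by
    have : 0 < r0 := by linarith
    positivity
  have h2 : 32 * (ε * g) ≤ r0 * g := by
    have := mul_le_mul_of_nonneg_right hr hg.le
    linarith
  have h3 : 0 < ε * g := by positivity
  have hl' := abs_le.mp hl
  have h4 : lT r0 K u g w z ≤ r0 * g := lT_le h1.le
  have h5 : |l - 3 / 2 * r0 * g| = l - 3 / 2 * r0 * g := abs_of_nonneg (by linarith)
  unfold lW
  rw [h5]
  have h6 : K * w + (1 - θ) * l + θ * (l - 3 / 2 * r0 * g) ≤ l - 2 * r0 * g := by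
    have h7 : 0 ≤ θ * (r0 * g) := mul_nonneg hθ.1 h1.le
    linarith
  rw [max_eq_right h6, max_eq_left (by linarith)]

variable [Fintype κ] {s : Set T} {θ u : T → ℝ}

theorem isSlab_lplates : IsSlab (lplates i₀ e ε R M K D θ u) .slab e (fun _ => R) (fun _ => M) where
  w := fun _ _ => rfl
  n := fun _ _ => rfl
  r := fun _ _ => rfl
  d := fun _ _ => rfl

/-- The plates which are neither the hairpin nor `t`, beside the slab. -/
theorem lplates_other (h : LAdm i₀ e j ε R M K D) {τ₀ : T} (hθ : θ τ₀ ∈ Icc (0 : ℝ) 1)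
    {x₀ : (ℝ × (ι → ℝ)) × V} (hx₀ : x₀.1 ≠ 0)
    (h0 : gre (lplates i₀ e ε R M K D θ u).rho τ₀ x₀ = 0)
    (hf : (lplates i₀ e ε R M K D θ u).rho τ₀ .fold x₀ ≠ 0)
    {X : HIx κ} (hX : X ≠ .slab ∧ X ≠ .fold ∧ X ≠ .sh (.inr false))
    (hX0 : (lplates i₀ e ε R M K D θ u).rho τ₀ X x₀ = 0) :
    ∃ (c n : (ι → ℝ) → V),
      (∀ τ x, (lplates i₀ e ε R M K D θ u).w τ X x = x.2 - ‖x.1‖ • c (kap x.1)) ∧
      (∀ τ x, (lplates i₀ e ε R M K D θ u).ν τ X x = n (kap x.1)) ∧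
      (∀ τ x, (lplates i₀ e ε R M K D θ u).r τ X x = ε * ‖x.1‖) ∧
      ContinuousOn c (closedBall 0 1) ∧ ContinuousOn n (closedBall 0 1) ∧
      (∀ x ∈ closedBall (0 : ι → ℝ) 1, ‖n x‖ = 1) ∧
      (∀ x ∈ closedBall (0 : ι → ℝ) 1, ‖c x‖ + 2 * ε < R) ∧
      0 < (lplates i₀ e ε R M K D θ u).σ τ₀ X x₀ ∧
      (‖kap x₀.1‖ = 1 → n (kap x₀.1) = e) := by
  set P := lplates i₀ e ε R M K D θ u with hP
  have hMp := h.posM
  have hrp := h.posr
  have hKp := h.posK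
  have hεp := h.hε
  have hg : 0 < ‖x₀.1‖ := norm_pos_iff.mpr hx₀
  have hle : ∀ a, P.rho τ₀ a x₀ ≤ 0 := fun a => h0 ▸ gre_ge τ₀ a x₀
  have htp : 0 ≤ P.tp τ₀ X x₀ := by
    have h3 : P.rho τ₀ X x₀ ≤ P.tp τ₀ X x₀ := min_le_left _ _
    rwa [hX0] at h3
  have hsl : ∀ (_ : ‖x₀.2‖ < R * ‖x₀.1‖), 0 ≤ x₀.1.1 - ‖x₀.1.2‖ / 2 →
      0 < x₀.1.1 - ‖x₀.1.2‖ / 2 := by
    intro hv h1
    by_contra h2
    have h3 := slab_pos_of hMp hx₀ hv h1 (not_lt.mp h2)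
    exact absurd (hle .slab) (not_le.mpr h3)
  have hσ0 : 0 ≤ P.σ τ₀ X x₀ := by
    have h3 : P.rho τ₀ X x₀ ≤ P.σ τ₀ X x₀ := min_le_right _ _
    rwa [hX0] at h3
  match X, hX, hX0, htp, hσ0 with
  | .sh (.inl a), _, hX0, htp, hσ0 =>
    have hcc : ∀ f : (ι → ℝ) → V, ContinuousOn (fun q : Unit × (ι → ℝ) => f q.2)
        (univ ×ˢ closedBall 0 1) → ContinuousOn f (closedBall 0 1) := fun f hf =>
      hf.comp (f := fun x : ι → ℝ => ((), x)) (by fun_prop) fun x hx => ⟨mem_univ _, hx⟩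
    refine ⟨D.b a, D.n a, fun _ _ => rfl, fun _ _ => rfl, fun _ _ => rfl,
      hcc _ (h.oth.cb a), hcc _ (h.oth.cn a), fun x hx => h.oth.nn () (mem_univ _) a x hx,
      fun x hx => h.hb a x hx, ?_, fun h1 => h.oth.nh () (mem_univ _) a _ h1⟩
    have hv : ‖x₀.2‖ < R * ‖x₀.1‖ := norm_lt_of_tp hg hεp (h.hb a _ (kap_mem _)) htp
    have h1 : 0 ≤ M * (x₀.1.1 - ‖x₀.1.2‖ / 2) := hσ0
    exact mul_pos hMp (hsl hv ((mul_nonneg_iff_of_pos_left hMp).mp h1))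
  | .sh (.inr true), _, hX0, htp, hσ0 =>
    have hlm : ∀ x ∈ closedBall (0 : ι → ℝ) 1, lf i₀ 0 x ∈ closedBall (0 : ι → ℝ) 1 ∧
        lf i₀ 0 x i₀ ≤ 0 := fun x hx =>
      ⟨mem_closedBall_zero_iff.mpr (lf_mem (by norm_num) (mem_closedBall_zero_iff.mp hx)),
        lf_apply_le _ _ _⟩
    have hlc : ContinuousOn (fun x : ι → ℝ => lf i₀ 0 x) (closedBall 0 1) := by
      have h1 : Continuous fun x : ι → ℝ => lf i₀ 0 x := by
        unfold lf
        fun_prop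
      exact h1.continuousOn
    obtain ⟨l1, l2, l3⟩ := h.left hx₀ hσ0
    refine ⟨fun x => D.bk (lf i₀ 0 x), fun x => D.nk (lf i₀ 0 x), fun _ _ => rfl, fun _ _ => rfl,
      fun _ _ => rfl, h.cbk.comp hlc hlm, h.cnk.comp hlc hlm,
      fun x hx => h.nnk _ (hlm x hx).1 (hlm x hx).2,
      fun x hx => h.hbR _ (hlm x hx).1 (hlm x hx).2, ?_, fun h1 => ?_⟩
    · have hv : ‖x₀.2‖ < R * ‖x₀.1‖ :=
        norm_lt_of_tp hg hεp (h.hbR _ (hlm _ (kap_mem x₀.1)).1 (hlm _ (kap_mem x₀.1)).2) htp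
      have h2 : 0 ≤ M * (x₀.1.1 - ‖x₀.1.2‖ / 2) := (le_min_iff.mp hσ0).1
      have h3 := hsl hv ((mul_nonneg_iff_of_pos_left hMp).mp h2)
      refine lt_min (mul_pos hMp h3) (mul_pos hMp ?_)
      have h4 : 0 ≤ M * (-(K * x₀.1.2 i₀) - 3 * D.r0 * ‖x₀.1‖) := (le_min_iff.mp hσ0).2
      have h5 := (mul_nonneg_iff_of_pos_left hMp).mp h4
      by_contra h6
      -- the hairpin is active
      have h7 : K * x₀.1.2 i₀ = -(3 * D.r0 * ‖x₀.1‖) := by linarith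
      have h8 : -(1 / 4) ≤ kap x₀.1 i₀ := by
        rw [kap_apply]
        have hgm := gmax_pos hx₀
        have hgn := norm_le_gmax x₀.1
        rw [div_mul_eq_mul_div, le_div_iff₀ hgm]
        have h9 : 64 * D.r0 * (-x₀.1.2 i₀) ≤ K * (-x₀.1.2 i₀) :=
          mul_le_mul_of_nonneg_right h.hK (by linarith)
        have h10 : D.r0 * (64 * (-x₀.1.2 i₀)) ≤ D.r0 * (3 * ‖x₀.1‖) := by linarith
        have h11 := le_of_mul_le_mul_left h10 hrp
        linarith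
      obtain ⟨b1, b2⟩ := h.kb _ (kap_mem x₀.1) h8 l2.le
      have h9 : 0 ≤ ε * ‖x₀.1‖ - ‖x₀.2 - ‖x₀.1‖ • D.bk (lf i₀ 0 (kap x₀.1))‖ := htp
      rw [l3, b1] at h9
      set y := x₀.2 - ‖x₀.1‖ • D.vj with hy
      have e1 : x₀.2 - ‖x₀.1‖ • (D.vj + (2 * D.r0) • D.f) = y - (2 * D.r0 * ‖x₀.1‖) • D.f := by
        rw [hy]; module
      rw [e1] at h9
      clear_value y
      have h10 : |inner ℝ y D.f - 2 * D.r0 * ‖x₀.1‖| ≤ ε * ‖x₀.1‖ := by
        have e2 : inner ℝ y D.f - 2 * D.r0 * ‖x₀.1‖ =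
            inner ℝ (y - (2 * D.r0 * ‖x₀.1‖) • D.f) D.f := by
          rw [inner_sub_left, real_inner_smul_left, real_inner_self_eq_norm_sq, h.ff]
          ring
        rw [e2]
        refine (abs_real_inner_le_norm _ _).trans ?_
        rw [h.ff, mul_one]
        linarith
      have h11 := lW_of_k (u := u τ₀) (z := x₀.1.1) hg hεp h.hr hθ h7.le h10
      have h12 : P.tp τ₀ .fold x₀ = ε * ‖x₀.1‖ - ‖y - (2 * D.r0 * ‖x₀.1‖) • D.f‖ := by
        show ε * ‖x₀.1‖ - ‖x₀.2 - ‖x₀.1‖ • D.vj + (lW D.r0 K (θ τ₀) (u τ₀) ‖x₀.1‖ (x₀.1.2 i₀)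
          x₀.1.1 (inner ℝ (x₀.2 - ‖x₀.1‖ • D.vj) D.f) -
            inner ℝ (x₀.2 - ‖x₀.1‖ • D.vj) D.f) • D.f‖ = _
        rw [← hy, h11]
        congr 2
        module
      apply hf
      refine le_antisymm (hle _) (le_min ?_ (le_min (mul_nonneg hMp.le h3.le)
        (mul_nonneg hMp.le ?_)))
      · rw [h12]; exact h9
      · rw [h7]
        have : 0 < D.r0 * ‖x₀.1‖ := by positivity
        linarith
    · show D.nk (lf i₀ 0 (kap x₀.1)) = e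
      rw [l3]
      exact (h.hbk _ h1 l2.le).2

/-- Distinct plates of this kind are not active together. -/
theorem lplates_far (h : LAdm i₀ e j ε R M K D) {τ₀ : T}
    {x₀ : (ℝ × (ι → ℝ)) × V} (hx₀ : x₀.1 ≠ 0)
    {X Y : HIx κ} (hX : X ≠ .slab ∧ X ≠ .fold ∧ X ≠ .sh (.inr false))
    (hY : Y ≠ .slab ∧ Y ≠ .fold ∧ Y ≠ .sh (.inr false)) (hXY : X ≠ Y)
    (hX0 : 0 ≤ (lplates i₀ e ε R M K D θ u).rho τ₀ X x₀)
    (hY0 : 0 ≤ (lplates i₀ e ε R M K D θ u).rho τ₀ Y x₀) : False := by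
  have hg : 0 < ‖x₀.1‖ := norm_pos_iff.mpr hx₀
  have hεp := h.hε
  have kk : ∀ a, 0 ≤ (lplates i₀ e ε R M K D θ u).rho τ₀ (.sh (.inl a)) x₀ →
      0 ≤ (lplates i₀ e ε R M K D θ u).rho τ₀ (.sh (.inr true)) x₀ → False := by
    intro a h1 h2
    obtain ⟨l1, l2, l3⟩ := h.left hx₀ (le_min_iff.mp h2).2
    have h3 : 0 ≤ ε * ‖x₀.1‖ - ‖x₀.2 - ‖x₀.1‖ • D.bk (lf i₀ 0 (kap x₀.1))‖ :=
      (le_min_iff.mp h2).1
    rw [l3] at h3
    have h4 := dist_le_of_tp hg h3 (le_min_iff.mp h1).1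
    have h5 := h.dk _ (kap_mem x₀.1) l2.le a
    linarith
  match X, Y, hX, hY, hXY, hX0, hY0 with
  | .sh (.inl a), .sh (.inl a'), _, _, hXY, hX0, hY0 =>
    have h1 := dist_le_of_tp hg (le_min_iff.mp hX0).1 (le_min_iff.mp hY0).1
    have h2 := h.hd a a' (fun h3 => hXY (by rw [h3])) _ (kap_mem x₀.1)
    linarith
  | .sh (.inl a), .sh (.inr true), _, _, _, hX0, hY0 => exact kk a hX0 hY0
  | .sh (.inr true), .sh (.inl a), _, _, _, hX0, hY0 => exact kk a hY0 hX0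
  | .sh (.inr true), .sh (.inr true), _, _, hXY, _, _ => exact hXY rfl
  | .fold, _, hX, _, _, _, _ => exact hX.2.1 rfl
  | .slab, _, hX, _, _, _, _ => exact hX.1 rfl
  | .sh (.inr false), _, hX, _, _, _, _ => exact hX.2.2 rfl
  | _, .fold, _, hY, _, _, _ => exact hY.2.1 rfl
  | _, .slab, _, hY, _, _, _ => exact hY.1 rfl
  | _, .sh (.inr false), _, hY, _, _, _ => exact hY.2.2 rfl

/-- **The zeros of the left family where neither the hairpin nor the sheet `t` is active.** -/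
theorem lplates_regAt_other (h : LAdm i₀ e j ε R M K D) (he : ‖e‖ = 1) {η : ℝ}
    (HB : (lplates i₀ e ε R M K D θ u).Base s η (fun x => ‖x.1‖))
    {τ₀ : T} (hτ₀ : τ₀ ∈ s) (hθ : θ τ₀ ∈ Icc (0 : ℝ) 1)
    {x₀ : (ℝ × (ι → ℝ)) × V} (hx₀ : x₀.1 ≠ 0)
    (h0 : gre (lplates i₀ e ε R M K D θ u).rho τ₀ x₀ = 0)
    (hb : ∀ a, (lplates i₀ e ε R M K D θ u).rho τ₀ a x₀ = 0 →
      (lplates i₀ e ε R M K D θ u).be τ₀ a x₀ = 0)
    (hf : (lplates i₀ e ε R M K D θ u).rho τ₀ .fold x₀ ≠ 0)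
    (ht : (lplates i₀ e ε R M K D θ u).rho τ₀ (.sh (.inr false)) x₀ ≠ 0) :
    RegAt s ((lplates i₀ e ε R M K D θ u).fn η (fun x => ‖x.1‖)) τ₀ x₀ := by
  set P := lplates i₀ e ε R M K D θ u with hP
  have hMp := h.posM
  have hRp := h.posR
  have hg : 0 < ‖x₀.1‖ := norm_pos_iff.mpr hx₀
  have hle : ∀ a, P.rho τ₀ a x₀ ≤ 0 := fun a => h0 ▸ gre_ge τ₀ a x₀
  obtain ⟨us, δ, hδ0, hδ1, HD, HS⟩ := exists_dir327 i₀ hx₀ (ρ := R / 2) (by positivity)
  have hMδ : ‖x₀.1.2‖ = |x₀.1.1| → 1 / 2 ≤ M * δ := fun h1 => by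
    have h2 := (HS h1).2
    have h3 : 16 * R * δ ≤ M * δ := mul_le_mul_of_nonneg_right h.hM hδ0
    linarith
  have hfront : P.σ τ₀ .slab x₀ = 0 → ‖x₀.1.2‖ = |x₀.1.1| ∧ ‖kap x₀.1‖ = 1 := by
    intro h1
    have h2 : M * (‖x₀.1.2‖ - |x₀.1.1|) = 0 := h1
    have h3 : ‖x₀.1.2‖ = |x₀.1.1| := by
      have := (mul_eq_zero.mp h2).resolve_left hMp.ne'
      linarith
    refine ⟨h3, ?_⟩
    apply norm_kap_of_le
    · rw [← h3]; linarith [norm_nonneg x₀.1.2]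
    · intro h4
      apply hx₀
      rw [h4, norm_zero] at h3
      exact Prod.ext (abs_eq_zero.mp h3.symm) h4
  by_cases hS : ∀ Y, Y ≠ .slab → P.rho τ₀ Y x₀ < 0
  · refine HB.regAt_slab_single isSlab_lplates he hτ₀ continuousWithinAt_const
      continuousOn_const hx₀ hRp h0 ?_ hS HD.plain (by linarith) (fun h1 => ?_)
    · obtain ⟨a, ha⟩ := exists_gre P.rho τ₀ x₀
      have ha0 : P.rho τ₀ a x₀ = 0 := by rw [← ha, h0]
      have ha1 : a = .slab := by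
        by_contra hne
        exact absurd ha0 (hS a hne).ne
      rw [ha1] at ha0
      exact hb .slab ha0
    · obtain ⟨h2, -⟩ := hfront h1
      exact ⟨hMδ h2, (HS h2).1.slab fun v => by simp⟩
  · push Not at hS
    obtain ⟨X, hX, hX0'⟩ := hS
    have hX0 : P.rho τ₀ X x₀ = 0 := le_antisymm (hle X) hX0'
    have hX3 : X ≠ .slab ∧ X ≠ .fold ∧ X ≠ .sh (.inr false) :=
      ⟨hX, fun h1 => hf (h1 ▸ hX0), fun h1 => ht (h1 ▸ hX0)⟩
    obtain ⟨c, n, w1, w2, w3, w4, w5, w6, w7, w8, w9⟩ := lplates_other h hθ hx₀ h0 hf hX3 hX0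
    have hk := kap_mem x₀.1
    have hc := w7 _ hk
    have h1 : δ * ‖c (kap x₀.1)‖ ≤ δ * R := mul_le_mul_of_nonneg_left (by
      have := h.hε
      linarith) hδ0
    have h2 : δ * ε ≤ δ * R := mul_le_mul_of_nonneg_left h.hR hδ0
    have SD : SheetDir s τ₀ x₀ (fun τ x => P.w τ X x) (fun τ x => P.ν τ X x)
        (fun τ x => P.r τ X x) (ContinuousLinearMap.inr ℝ (ℝ × (ι → ℝ)) V) (us, (0 : V)) := by
      have h3 := sheetDir_plain (s := s) (τ₀ := τ₀) (x₀ := x₀) (c := fun _ x => c x)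
        (n := fun _ x => n x) (ρ := fun _ => ε)
        (w4.comp continuousOn_snd fun p hp => hp.2)
        (w5.comp continuousOn_snd fun p hp => hp.2) continuousOn_const hτ₀ hx₀
        (Eventually.of_forall fun p => w6 _ (kap_mem _)) h.hε.le HD.plain (by linarith)
        (by linarith)
      have e1 : (fun τ x => P.w τ X x) = fun (_ : T) x => x.2 - ‖x.1‖ • c (kap x.1) := by
        funext τ x; exact w1 τ x
      have e2 : (fun τ x => P.ν τ X x) = fun (_ : T) x => n (kap x.1) := by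
        funext τ x; exact w2 τ x
      have e3 : (fun τ x => P.r τ X x) = fun (_ : T) x => ε * ‖x.1‖ := by
        funext τ x; exact w3 τ x
      rw [e1, e2, e3]
      exact h3
    have htp : 0 ≤ P.tp τ₀ X x₀ := by
      have h3 : P.rho τ₀ X x₀ ≤ P.tp τ₀ X x₀ := min_le_left _ _
      rwa [hX0] at h3
    have hv : ‖x₀.2‖ < R * ‖x₀.1‖ := by
      have h3 : 0 ≤ P.r τ₀ X x₀ - ‖P.w τ₀ X x₀‖ := htp
      rw [w3, w1] at h3
      exact norm_lt_of_tp hg h.hε hc h3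
    refine HB.regAt_slab_pair (δ := δ) isSlab_lplates he hτ₀ continuousWithinAt_const hx₀ h0 hX0 w8
      (by rw [w3]; exact mul_pos h.hε hg) (hb X hX0) hv ?_ SD (fun h3 => ?_)
    · intro Y hY hYX
      left
      by_contra h3
      have h4 : P.rho τ₀ Y x₀ = 0 := le_antisymm (hle Y) (not_lt.mp h3)
      exact lplates_far h hx₀ hX3 ⟨hY, fun h5 => hf (h5 ▸ h4), fun h5 => ht (h5 ▸ h4)⟩
        (Ne.symm hYX) hX0.ge h4.ge
    · obtain ⟨k1, k2⟩ := hfront h3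
      exact ⟨by rw [w2]; exact w9 k2, fun v => by simp, hMδ k1, (HS k1).1.slab fun v => by simp⟩

end Vale.Agent.P268.T.H240
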