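import Vale.Agent.P268.T.H327.HPReg

/-!
# P268, topological half: zeros with at most one active plate beside the slab

General versions (for any data of sheets with a slab) of `pair_regAt` and `single_regAt`.
-/

set_option linter.unusedSectionVars false

namespace Vale.Agent.P268.T

open Set Filter Topology Metric

variable {T Q V A : Type*} [TopologicalSpace T] [NormedAddCommGroup Q] [NormedSpace ℝ Q]
  [NormedAddCommGroup V] [InnerProductSpace ℝ V] [Fintype A] [Nonempty A] {s : Set T}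

/-- The plate `o` is the slab, with radius `R` and slope `M`. -/
structure IsSlab (P : SheetData T ((ℝ × Q) × V) V A) (o : A) (e : V) (R M : T → ℝ) : Prop where
  w : ∀ τ x, P.w τ o x = x.2
  n : ∀ τ x, P.ν τ o x = e
  r : ∀ τ x, P.r τ o x = R τ * ‖x.1‖
  d : ∀ τ x, P.σ τ o x = M τ * (‖x.1.2‖ - |x.1.1|)

variable {P : SheetData T ((ℝ × Q) × V) V A} {o : A} {e : V} {R M : T → ℝ} {η : ℝ}

/-- A zero with one active plate `X` beside the slab. -/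
theorem SheetData.Base.regAt_slab_pair (HB : P.Base s η (fun x => ‖x.1‖))
    (HS : IsSlab P o e R M) (he : ‖e‖ = 1) {τ₀ : T} (hτ₀ : τ₀ ∈ s)
    (cM : ContinuousWithinAt M s τ₀) {x₀ : (ℝ × Q) × V} (hx₀ : x₀.1 ≠ 0)
    (h0 : gre P.rho τ₀ x₀ = 0) {X : A} (hX0 : P.rho τ₀ X x₀ = 0)
    (hσX : 0 < P.σ τ₀ X x₀) (hrX : 0 < P.r τ₀ X x₀)
    (hbX : P.be τ₀ X x₀ = 0) (hv : ‖x₀.2‖ < R τ₀ * ‖x₀.1‖)
    (hdom : ∀ Y, Y ≠ o → Y ≠ X → P.rho τ₀ Y x₀ < 0 ∨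
      ∀ᶠ p : T × ((ℝ × Q) × V) in 𝓝[s ×ˢ univ] (τ₀, x₀), P.rho p.1 Y p.2 ≤ P.rho p.1 X p.2)
    {D : V →L[ℝ] (ℝ × Q) × V} {us : ℝ × Q} {δ : ℝ}
    (SD : SheetDir s τ₀ x₀ (fun τ x => P.w τ X x) (fun τ x => P.ν τ X x)
      (fun τ x => P.r τ X x) D (us, (0 : V)))
    (hslab : P.σ τ₀ o x₀ = 0 → P.ν τ₀ X x₀ = e ∧ (∀ v, inner ℝ (D v).2 e = inner ℝ v e) ∧
      1 / 2 ≤ M τ₀ * δ ∧ ∃ U ∈ 𝓝 x₀, ∀ y ∈ U, ∀ (v : V) (l : ℝ),
        y + (D v + l • (us, (0 : V))) ∈ U →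
        (‖(y + (D v + l • (us, (0 : V)))).1.2‖ - |(y + (D v + l • (us, (0 : V)))).1.1|) -
          (‖y.1.2‖ - |y.1.1|) = δ * l) :
    RegAt s (P.fn η (fun x => ‖x.1‖)) τ₀ x₀ := by
  have G := HB.glue
  have hmem : (τ₀, x₀) ∈ s ×ˢ (univ : Set ((ℝ × Q) × V)) := ⟨hτ₀, mem_univ _⟩
  have hg : 0 < ‖x₀.1‖ := norm_pos_iff.mpr hx₀
  have htS : 0 < P.tp τ₀ o x₀ := by
    show 0 < P.r τ₀ o x₀ - ‖P.w τ₀ o x₀‖
    rw [HS.r, HS.w]
    linarith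
  have hXo : X ≠ o := by
    rintro rfl
    have h1 : min (P.tp τ₀ X x₀) (P.σ τ₀ X x₀) = 0 := hX0
    exact absurd h1 (lt_min htS hσX).ne'
  have htp : P.tp τ₀ X x₀ = 0 := by
    have h1 : min (P.tp τ₀ X x₀) (P.σ τ₀ X x₀) = 0 := hX0
    rcases min_choice (P.tp τ₀ X x₀) (P.σ τ₀ X x₀) with h2 | h2
    · rw [← h2, h1]
    · rw [h2] at h1; exact absurd h1 hσX.ne'
  have hwn : ‖P.w τ₀ X x₀‖ = P.r τ₀ X x₀ := by
    have : P.r τ₀ X x₀ - ‖P.w τ₀ X x₀‖ = 0 := htp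
    linarith
  have hwp : 0 < ‖P.w τ₀ X x₀‖ := by rw [hwn]; exact hrX
  have hw0 : P.w τ₀ X x₀ ≠ 0 := norm_pos_iff.mp hwp
  set ν₀ := P.ν τ₀ X x₀ with hν₀
  set ω : V := -(‖P.w τ₀ X x₀‖⁻¹ • P.w τ₀ X x₀) with hω
  have hω1 : ‖ω‖ = 1 := by
    rw [hω, norm_neg, norm_smul, norm_inv, norm_norm, inv_mul_cancel₀ hwp.ne']
  have hων : inner ℝ ω ν₀ = 0 := by
    rw [hω, inner_neg_left, real_inner_smul_left]
    have h1 : inner ℝ (P.w τ₀ X x₀) ν₀ = 0 := hbX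
    rw [h1, mul_zero, neg_zero]
  have hwω : P.w τ₀ X x₀ = -(‖P.w τ₀ X x₀‖ • ω) := by
    rw [hω, smul_neg, neg_neg, smul_smul, mul_inv_cancel₀ hwp.ne', one_smul]
  have ct : ∀ a, ContinuousWithinAt (fun p : T × ((ℝ × Q) × V) => P.tp p.1 a p.2)
      (s ×ˢ univ) (τ₀, x₀) := fun a => HB.toBaseL.continuousOn_tp a (τ₀, x₀) hmem
  have cσ : ∀ a, ContinuousWithinAt (fun p : T × ((ℝ × Q) × V) => P.σ p.1 a p.2)
      (s ×ˢ univ) (τ₀, x₀) := fun a => HB.cs a (τ₀, x₀) hmem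
  refine G.regAt_rel hτ₀ hg.ne' h0 {o, X} (κ := 1 / 4) (K := max 7 (1 + 2 * (M τ₀ * δ)))
    ?_ (by norm_num) (SheetData.rimA D (us, (0 : V)) ω ν₀) ?_
  · intro Y hY
    simp only [mem_insert_iff, mem_singleton_iff, not_or] at hY
    rcases hdom Y hY.1 hY.2 with h1 | h1
    · exact Or.inl h1
    · exact Or.inr ⟨X, by simp, h1⟩
  · intro a ha ha0
    simp only [mem_insert_iff, mem_singleton_iff] at ha
    rcases ha with rfl | rfl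
    · refine ⟨fun τ x => P.tp τ a x, fun τ x => P.σ τ a x,
        Eventually.of_forall fun p => rfl, ct a, cσ a,
        fun h1 => absurd h1 htS.ne', fun h1 => ?_⟩
      obtain ⟨k1, k2, k3, k4⟩ := hslab h1
      have k5 : inner ℝ ω e = 0 := by rw [← k1]; exact hων
      have := slab_front_inc2 (s := s) (x₀ := x₀) cM k3 he k5 k2 k4
        (K := max 7 (1 + 2 * (M τ₀ * δ))) (le_max_right _ _)
      rw [k1]
      have e1 : (fun τ x => P.be τ a x) =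
          fun (τ : T) (x : (ℝ × Q) × V) => inner ℝ x.2 e := by
        funext τ x
        show inner ℝ (P.w τ a x) (P.ν τ a x) = _
        rw [HS.w, HS.n]
      have e2 : (fun τ x => P.σ τ a x) =
          fun (τ : T) (x : (ℝ × Q) × V) => M τ * (‖x.1.2‖ - |x.1.1|) := by
        funext τ x
        exact HS.d τ x
      rw [e1, e2]
      exact this
    · exact ⟨fun τ x => P.tp τ a x, fun τ x => P.σ τ a x,
        Eventually.of_forall fun p => rfl, ct a, cσ a,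
        fun _ => SD.inc2 hτ₀ hω1 hων rfl hw0 hwω (le_max_left _ _),
        fun h1 => absurd h1 hσX.ne'⟩

/-- A zero where only the slab is active. -/
theorem SheetData.Base.regAt_slab_single (HB : P.Base s η (fun x => ‖x.1‖))
    (HS : IsSlab P o e R M) (he : ‖e‖ = 1) {τ₀ : T} (hτ₀ : τ₀ ∈ s)
    (cM : ContinuousWithinAt M s τ₀) (cR : ContinuousOn R s) {x₀ : (ℝ × Q) × V} (hx₀ : x₀.1 ≠ 0)
    (hR : 0 < R τ₀) (h0 : gre P.rho τ₀ x₀ = 0) (hb : P.be τ₀ o x₀ = 0)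
    (hdom : ∀ Y, Y ≠ o → P.rho τ₀ Y x₀ < 0) {us : ℝ × Q} {δ : ℝ}
    (hus : ∃ U ∈ 𝓝 x₀.1, ∀ y ∈ U, ∀ l : ℝ, y + l • us ∈ U →
      kap (y + l • us) = kap y ∧ |‖y + l • us‖ - ‖y‖| ≤ δ * |l|)
    (hδ : δ * R τ₀ < 1 / 8)
    (hslab : P.σ τ₀ o x₀ = 0 → 1 / 2 ≤ M τ₀ * δ ∧ ∃ U ∈ 𝓝 x₀, ∀ y ∈ U, ∀ (v : V) (l : ℝ),
        y + (ContinuousLinearMap.inr ℝ (ℝ × Q) V v + l • (us, (0 : V))) ∈ U →
        (‖(y + (ContinuousLinearMap.inr ℝ (ℝ × Q) V v + l • (us, (0 : V)))).1.2‖ -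
          |(y + (ContinuousLinearMap.inr ℝ (ℝ × Q) V v + l • (us, (0 : V)))).1.1|) -
          (‖y.1.2‖ - |y.1.1|) = δ * l) :
    RegAt s (P.fn η (fun x => ‖x.1‖)) τ₀ x₀ := by
  have G := HB.glue
  have hmem : (τ₀, x₀) ∈ s ×ˢ (univ : Set ((ℝ × Q) × V)) := ⟨hτ₀, mem_univ _⟩
  have hg : 0 < ‖x₀.1‖ := norm_pos_iff.mpr hx₀
  have hbe : inner ℝ x₀.2 e = 0 := by
    have h1 : inner ℝ (P.w τ₀ o x₀) (P.ν τ₀ o x₀) = 0 := hb
    rwa [HS.w, HS.n] at h1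
  have e1 : (fun τ x => P.be τ o x) =
      fun (τ : T) (x : (ℝ × Q) × V) => inner ℝ x.2 e := by
    funext τ x
    show inner ℝ (P.w τ o x) (P.ν τ o x) = _
    rw [HS.w, HS.n]
  have e2 : (fun τ x => P.σ τ o x) =
      fun (τ : T) (x : (ℝ × Q) × V) => M τ * (‖x.1.2‖ - |x.1.1|) := by
    funext τ x
    exact HS.d τ x
  have e3 : (fun τ x => P.tp τ o x) =
      fun (τ : T) (x : (ℝ × Q) × V) => R τ * ‖x.1‖ - ‖x.2‖ := by
    funext τ x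
    show P.r τ o x - ‖P.w τ o x‖ = _
    rw [HS.r, HS.w]
  have SD : SheetDir s τ₀ x₀ (fun _ x => x.2) (fun _ _ => e)
      (fun τ x => R τ * ‖x.1‖) (ContinuousLinearMap.inr ℝ (ℝ × Q) V) (us, (0 : V)) := by
    have h1 := sheetDir_plain (s := s) (τ₀ := τ₀) (x₀ := x₀) (c := fun _ _ => (0 : V))
      (n := fun _ _ => e) (ρ := R) continuousOn_const continuousOn_const cR hτ₀ hx₀
      (Eventually.of_forall fun _ => he) hR.le hus (by norm_num) hδ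
    have e4 : (fun (τ : T) (x : (ℝ × Q) × V) => x.2 - ‖x.1‖ • (0 : V)) =
        fun τ x => x.2 := by
      funext τ x
      rw [smul_zero, sub_zero]
    rw [e4] at h1
    exact h1
  obtain ⟨ω, hω1, hωe, hω2⟩ : ∃ ω : V, ‖ω‖ ≤ 1 ∧ inner ℝ ω e = 0 ∧
      (P.tp τ₀ o x₀ = 0 → ‖ω‖ = 1 ∧ x₀.2 ≠ 0 ∧ x₀.2 = -(‖x₀.2‖ • ω)) := by
    by_cases ht : P.tp τ₀ o x₀ = 0
    · have h1 : R τ₀ * ‖x₀.1‖ - ‖x₀.2‖ = 0 := by
        have h1 : P.r τ₀ o x₀ - ‖P.w τ₀ o x₀‖ = 0 := ht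
        rwa [HS.r, HS.w] at h1
      have h2 : 0 < ‖x₀.2‖ := by
        have : 0 < R τ₀ * ‖x₀.1‖ := by positivity
        linarith
      have h3 : ‖-(‖x₀.2‖⁻¹ • x₀.2)‖ = 1 := by
        rw [norm_neg, norm_smul, norm_inv, norm_norm, inv_mul_cancel₀ h2.ne']
      refine ⟨-(‖x₀.2‖⁻¹ • x₀.2), h3.le, ?_, fun _ => ⟨h3, norm_pos_iff.mp h2, ?_⟩⟩
      · rw [inner_neg_left, real_inner_smul_left, hbe, mul_zero, neg_zero]
      · rw [smul_neg, neg_neg, smul_smul, mul_inv_cancel₀ h2.ne', one_smul]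
    · exact ⟨0, by simp, inner_zero_left _, fun h1 => absurd h1 ht⟩
  refine G.regAt_rel hτ₀ hg.ne' h0 {o} (κ := 1 / 4) (K := max 7 (1 + 2 * (M τ₀ * δ)))
    ?_ (by norm_num) (SheetData.rimA (ContinuousLinearMap.inr ℝ (ℝ × Q) V)
      (us, (0 : V)) ω e) ?_
  · intro Y hY
    exact Or.inl (hdom Y (by simpa using hY))
  · intro a ha ha0
    rw [mem_singleton_iff] at ha
    subst ha
    refine ⟨fun τ x => P.tp τ a x, fun τ x => P.σ τ a x,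
      Eventually.of_forall fun p => rfl, HB.toBaseL.continuousOn_tp a (τ₀, x₀) hmem,
      HB.cs a (τ₀, x₀) hmem, fun h1 => ?_, fun h1 => ?_⟩
    · obtain ⟨k1, k2, k3⟩ := hω2 h1
      have := SD.inc2 hτ₀ k1 hωe rfl k2 k3 (K := max 7 (1 + 2 * (M τ₀ * δ))) (le_max_left _ _)
      rw [e1, e3]
      exact this
    · obtain ⟨h3, h4⟩ := hslab h1
      rw [e1, e2]
      exact slab_front_inc2 (s := s) (x₀ := x₀) cM h3 he hωe
        (fun v => by simp) h4 (K := max 7 (1 + 2 * (M τ₀ * δ))) (le_max_right _ _)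

end Vale.Agent.P268.T
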